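import Vale.Agent.P196.Full.Lift.Pres.Eval
import Vale.Agent.P196.Full.Lift.Central.Spec

/-!
# P196: a valuation on the presented group gives the presentation modulo the centre
-/

namespace Vale.Agent.P196.Full.Lift

open Calculus Tiles

variable {n : ℕ}

/-- The value of every generator through the valuation, killing every relator. -/
def RelatorsHold {Q : Type} [Group Q] (A : Amp Q n) {P : Part A.u (LTile 0)} (V : Valuation A P) :
    Prop :=
  ∃ φ : Gen Pts n → Q,
    (∀ (g : Gen Pts n) (f : Fin n → Lat), ∑ c, f c = 0 → f g.p.2 = g.p.1 → f g.q.2 = g.q.1 →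
      f g.r.2 = g.r.1 →
      φ g = A.lam f * V.E g.U (cyc g.p.2 g.q.2 g.r.2 g.tri) * (A.lam f)⁻¹) ∧
    ∀ w, URel sys w → FreeGroup.lift φ w = 1

theorem qm_surjective (L : ℕ) : Function.Surjective (qm (n := n) L) :=
  (QuotientGroup.mk'_surjective _).comp (PresentedGroup.mk_surjective _)

/-- A valuation of the model whose generators satisfy the relators gives a presentation modulo
the centre. -/
theorem projFP_of_relators [Nonempty Pts] {hn : 8 ≤ n} {L : ℕ} {hL : Enough hn L}
    (V : Valuation (amp hL) (basePart hL)) (hR : RelatorsHold (amp hL) V) : ProjFP sys n := by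
  classical
  obtain ⟨φ, hφ, hrel⟩ := hR
  have hfree : ∀ g : Gen Pts n, ∃ d, d ∉ [g.p.2, g.q.2, g.r.2] := fun g =>
    exists_fresh _ (by simp only [List.length_cons, List.length_nil]; omega)
  have hev : ∀ g : Gen Pts n, evQ hn L (φ g) = g.perm sys := by
    intro g
    obtain ⟨d, hd⟩ := hfree g
    obtain ⟨hp, hq, hr⟩ := triVec_fst g.tri hd g.p.1 g.q.1 g.r.1
    have hsum : ∑ c, triVec g.p.2 g.q.2 g.r.2 d g.p.1 g.q.1 g.r.1 c = 0 := by
      simp [triVec, Finset.sum_add_distrib, sum_pairVec]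
    rw [hφ g _ hsum hp hq hr, map_mul, map_mul, map_inv, evals V g.U]
    show evQ hn L (qm L (wLam hn _)) * _ * (evQ hn L (qm L (wLam hn _)))⁻¹ = _
    rw [evQ_qm, evG_wLam hn hsum]
    exact (perm_eq_conj sys g _ hp hq hr).symm
  let φ₀ : Gen Pts n → FreeGroup (Fin (kk n)) := fun g => (qm_surjective L (φ g)).choose
  have hφ₀ : ∀ g, qm L (φ₀ g) = φ g := fun g => (qm_surjective L (φ g)).choose_spec
  have hcentre : ∀ w, qm L w = 1 → wmk L w ∈ Subgroup.center (Grp n L) := fun w h =>
    (QuotientGroup.eq_one_iff _).1 h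
  refine ⟨kk n, iota, rels n L, rels_finite L, fun w hw => hw.2, φ₀, fun g => ?_, fun i => ?_,
    fun w hw => ?_⟩
  · show evG (φ₀ g) = _
    rw [← evQ_qm hn L, hφ₀, hev]
  · refine hcentre _ ?_
    rw [map_mul, map_inv, inv_mul_eq_one, hφ₀]
    obtain ⟨d, hd⟩ := hfree (iota i)
    obtain ⟨hp, hq, hr⟩ := triVec_fst (iota i).tri hd (iota i).p.1 (iota i).q.1 (iota i).r.1
    rw [hφ (iota i) _ (by simp [triVec, Finset.sum_add_distrib, sum_pairVec]) hp hq hr]
    have hU : (iota i).U = cyl (idx i).1.1 := rfl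
    have hd' : d ∉ (idx i).colours := hd
    have hgen := congrArg (QuotientGroup.mk' (Subgroup.center (Grp n L))) (hL.gen_eq i d hd')
    simp only [map_mul, map_inv] at hgen
    rw [hU, valuation_cyl V, block_basePart]
    exact hgen.symm
  · refine hcentre _ ?_
    have : (qm L).comp (FreeGroup.lift φ₀) = FreeGroup.lift φ :=
      FreeGroup.ext_hom _ _ fun g => by simp [hφ₀]
    rw [show qm L (FreeGroup.lift φ₀ w) = FreeGroup.lift φ w from DFunLike.congr_fun this w]
    exact hrel w hw

end Vale.Agent.P196.Full.Lift
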