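import Vale.Agent.P196.Full.Lift.Window.Sites
import Vale.Agent.P196.Full.Tiles.Rank.Bounded

/-!
# P196: lifted levels give a valuation of the clopen sets

The partitions of the windows are jointly defined; patterns that do not occur in the subshift have
trivial atoms, because some extension of them to a larger window does not match. So the blocks of
window partitions depend only on clopen sets.
-/

namespace Vale.Agent.P196.Full.Lift

open Calculus Calculus.Part Tiles
open scoped Classical

variable {n : ℕ} {Q : Type} [Group Q] {A : Amp Q n} {P : Part A.u (LTile 0)}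

/-- A square around the origin. -/
noncomputable def boxSet (R : ℕ) : Finset Lat :=
  Finset.Icc (-(R : ℤ)) R ×ˢ Finset.Icc (-(R : ℤ)) R

theorem mem_boxSet {R : ℕ} {z : Lat} :
    z ∈ boxSet R ↔ z.1.natAbs ≤ R ∧ z.2.natAbs ≤ R := by
  simp only [boxSet, Finset.mem_product, Finset.mem_Icc]
  omega

/-- The sites of a square. -/
abbrev Box (R : ℕ) : Type := ↥(boxSet R)

theorem zero_mem_boxSet (R : ℕ) : (0 : Lat) ∈ boxSet R := mem_boxSet.2 ⟨by simp, by simp⟩

theorem boxSet_mono {R R' : ℕ} (h : R ≤ R') : boxSet R ⊆ boxSet R' := fun _ hz =>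
  mem_boxSet.2 ⟨(mem_boxSet.1 hz).1.trans h, (mem_boxSet.1 hz).2.trans h⟩

/-- A smaller square inside a larger one. -/
def boxIncl {R R' : ℕ} (h : R ≤ R') (i : Box R) : Box R' := ⟨i.1, boxSet_mono h i.2⟩

/-- The pattern of a point in a square. -/
def patt (R : ℕ) (x : Pts) : Box R → LTile 0 := fun i => ⟨tilesOf x i.1, ok_tilesOf x i.1⟩

theorem patt_eq_iff {R : ℕ} {x y : Pts} : patt R x = patt R y ↔
    ∀ z : ℤ × ℤ, z.1.natAbs ≤ R → z.2.natAbs ≤ R → tilesOf x z = tilesOf y z := by
  refine ⟨fun h z h1 h2 => congrArg Subtype.val (congrFun h ⟨z, mem_boxSet.2 ⟨h1, h2⟩⟩), fun h => ?_⟩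
  funext i
  exact Subtype.ext (h i.1 (mem_boxSet.1 i.2).1 (mem_boxSet.1 i.2).2)

/-- A tile of level `0` as a tile of the subshift. -/
def toBase (t : LTile 0) : Base := ⟨t.1, t.2⟩

@[simp] theorem toBase_val (t : LTile 0) : (toBase t).1 = t.1 := rfl

/-- A pattern occurring in no point has, in some larger square, no extension that matches. -/
theorem exists_bad {R : ℕ} {p : Box R → LTile 0} (hp : ∀ x, patt R x ≠ p) :
    ∃ (R' : ℕ) (h : R ≤ R'), ∀ q : Box R' → LTile 0, q ∘ boxIncl h = p →
      ∃ (i j : Box R'), (j.1 = i.1 + (1, 0) ∧ (q i).1.r ≠ (q j).1.l) ∨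
        (j.1 = i.1 + (0, 1) ∧ (q i).1.u ≠ (q j).1.d) := by
  by_contra hcon
  push Not at hcon
  let F : ℕ → Set (ℤ × ℤ → Base) := fun k =>
    {x | (∀ i : Box R, (x i.1).1 = (p i).1) ∧
      ∀ i : Box (R + k), (i.1 + (1, 0) ∈ boxSet (R + k) → (x i.1).1.r = (x (i.1 + (1, 0))).1.l) ∧
        (i.1 + (0, 1) ∈ boxSet (R + k) → (x i.1).1.u = (x (i.1 + (0, 1))).1.d)}
  have key : ∀ (a b : ℤ × ℤ) (r : Base → Base → Prop),
      IsClosed {x : ℤ × ℤ → Base | r (x a) (x b)} := fun a b r =>
    IsClosed.preimage (f := fun x : ℤ × ℤ → Base => (x a, x b))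
      ((continuous_apply a).prodMk (continuous_apply b)) (t := {z : Base × Base | r z.1 z.2})
      (isClosed_discrete _)
  have hcl : ∀ k, IsClosed (F k) := fun k => by
    simp only [F, Set.ofPred_and, Set.ofPred_forall]
    exact (isClosed_iInter fun i => key i.1 i.1 fun a _ => a.1 = (p i).1).inter
      (isClosed_iInter fun i => (isClosed_iInter fun _ => key _ _ fun a b => a.1.r = b.1.l).inter
        (isClosed_iInter fun _ => key _ _ fun a b => a.1.u = b.1.d))
  have hanti : ∀ k, F (k + 1) ⊆ F k := fun k x hx => ⟨hx.1, fun i =>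
    ⟨fun h => (hx.2 (boxIncl (Nat.le_succ _) i)).1 (boxSet_mono (Nat.le_succ _) h),
      fun h => (hx.2 (boxIncl (Nat.le_succ _) i)).2 (boxSet_mono (Nat.le_succ _) h)⟩⟩
  have hne : ∀ k, (F k).Nonempty := fun k => by
    obtain ⟨q, hq, hgood⟩ := hcon (R + k) (Nat.le_add_right _ _)
    refine ⟨fun z => if h : z ∈ boxSet (R + k) then toBase (q ⟨z, h⟩)
      else ⟨seed (lvl 0), Generated.base 0⟩, fun i => ?_, fun i => ⟨fun h => ?_, fun h => ?_⟩⟩
    · simp only [dif_pos (boxSet_mono (Nat.le_add_right R k) i.2), toBase_val]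
      rw [← hq]
      rfl
    · simp only [dif_pos i.2, dif_pos h, toBase_val]
      exact (hgood i ⟨_, h⟩).1 rfl
    · simp only [dif_pos i.2, dif_pos h, toBase_val]
      exact (hgood i ⟨_, h⟩).2 rfl
  obtain ⟨x, hx⟩ := IsCompact.nonempty_iInter_of_sequence_nonempty_isCompact_isClosed F hanti hne
    (hcl 0).isCompact hcl
  simp only [Set.mem_iInter] at hx
  have hm : Matches fun z => (x z).1 := by
    refine ⟨fun z => ?_, fun z => ?_⟩
    · have h := ((hx (z.1.natAbs + z.2.natAbs + 1)).2 ⟨z, mem_boxSet.2 (by omega)⟩).1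
      exact h (mem_boxSet.2 (by simp only [Prod.fst_add, Prod.snd_add]; omega))
    · have h := ((hx (z.1.natAbs + z.2.natAbs + 1)).2 ⟨z, mem_boxSet.2 (by omega)⟩).2
      exact h (mem_boxSet.2 (by simp only [Prod.fst_add, Prod.snd_add]; omega))
  exact hp ⟨x, hm⟩ (funext fun i => Subtype.ext ((hx 0).1 i))

/-- At level `0` the supertiles are the tiles. -/
theorem level_zero (L : Level A P 0) (hP : GoodPart A P) :
    (∀ γ : Col HL, A.Shift (1, 0) (block P fun T => T.1.r = γ) (block P fun T => T.1.l = γ)) ∧
      ∀ γ : Col VL, A.Shift (0, 1) (block P fun T => T.1.u = γ) (block P fun T => T.1.d = γ) := by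
  let c : Fin (width 0) × Fin (width 0) := (⟨0, width_pos 0⟩, ⟨0, width_pos 0⟩)
  have hu : L.unit = A.u := by
    have h1 : L.cells.atom c = A.u := by
      refine MonoidHom.ext fun a => ?_
      rw [atom_apply, ← L.cells.hom_const]
      refine congrArg _ (funext fun c' => ?_)
      have e0 : width 0 = 1 := rfl
      have : c' = c := by
        refine Prod.ext (Fin.ext ?_) (Fin.ext ?_)
        · have := c'.1.isLt; show (c'.1 : ℕ) = 0; omega
        · have := c'.2.isLt; show (c'.2 : ℕ) = 0; omega
      rw [this, Pi.mulSingle_eq_same]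
    rw [← h1]
    exact Amp.Shift.unique (Amp.Shift.of_good_zero L.tiles_good.unit)
      (by simpa [c, Prod.mk_zero_zero] using L.cells_shift c)
  have hblock : ∀ p : LTile 0 → Prop, block L.tiles p = block P p := by
    intro p
    have hc : ∀ i j, j ≠ i → Comm (L.tiles.atom i) (P.atom j) := by
      intro i j hji
      have := L.site c i j _ (by
        simpa [c, Prod.mk_zero_zero] using Amp.Shift.of_good_zero (L.tiles_good.atom i))
      rw [if_neg] at this
      · exact this.comm_of_one
      · exact fun e => hji (Subtype.ext e.symm)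
    refine MonoidHom.ext fun a => ?_
    let T' : Part A.u (LTile 0) := ⟨L.tiles.hom, fun a => (L.tiles.hom_const a).trans
      (DFunLike.congr_fun hu a)⟩
    have : T'.hom = P.hom := eq_of_orth A.closed.colours (P := T') fun i j hji => hc i j hji
    rw [block_apply, block_apply, ← this]
  refine ⟨fun γ => ?_, fun γ => ?_⟩
  · simpa [width, hblock] using L.match_h γ
  · simpa [width, hblock] using L.match_v γ

/-- Tiles that do not match cannot be neighbours. -/
theorem comm_neighbours (hP : GoodPart A P) {e : Lat} {p q : LTile 0 → Prop}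
    (hpq : A.Shift e (block P p) (block P q)) {t t' : LTile 0} (ht : p t) (ht' : ¬ q t') (v : Lat) :
    Comm ((site hP v).atom t) ((site hP (v + e)).atom t') := by
  obtain ⟨R, hR, hRg⟩ := exists_pshift hP (Amp.Shift.unit A e)
  have eG : block R p = block P q := (hR.shift_block p).unique hpq
  have hG : Comm (block P q) (P.atom t') := by
    rw [atom_eq_block]
    exact block_comm P fun i hi e => ht' (e ▸ hi)
  have h2 := meet_atom_block R ht
  rw [eG] at h2
  have h3 : Comm (R.atom t) (P.atom t') :=
    comm_of_le (hRg.atom t) (hP.atom t') (hP q) (hP.atom t') h2 (Meet.self _) hG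
  refine Amp.Shift.comm ?_ (site_shift hP (v + e) t') h3
  have := (hR t).symm.add (site_shift hP v t)
  rwa [← neg_add_rev] at this

section Valuation

variable (hP : GoodPart A P) (hL : ∀ s, Nonempty (Level A P s))

/-- The partition of a square by its patterns. -/
noncomputable def win (R : ℕ) : Part A.u (Box R → LTile 0) :=
  (exists_win hP hL fun i : Box R => i.1).choose

theorem win_good (R : ℕ) : GoodPart A (win hP hL R) :=
  (exists_win hP hL fun i : Box R => i.1).choose_spec.1

theorem win_isWin (R : ℕ) : IsWin hP (fun i : Box R => i.1) (win hP hL R) :=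
  (exists_win hP hL fun i : Box R => i.1).choose_spec.2

theorem win_restrict {R R' : ℕ} (h : R ≤ R') :
    ((win hP hL R').merge fun q => q ∘ boxIncl h).hom = (win hP hL R).hom :=
  ((win_isWin hP hL R').restrict (boxIncl h)).unique ((win_good hP hL R').merge _)
    (win_isWin hP hL R) (win_good hP hL R)

/-- Patterns occurring in no point have trivial atoms. -/
theorem win_absent {R : ℕ} {p : Box R → LTile 0} (hp : ∀ x, patt R x ≠ p) :
    (win hP hL R).atom p = 1 := by
  obtain ⟨R', h, hbad⟩ := exists_bad hp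
  obtain ⟨h0, v0⟩ := level_zero (hL 0).some hP
  rw [atom_eq_block, ← block_congr_hom (win_restrict hP hL h), block_merge]
  have : ∀ q, (win hP hL R').atom q ≠ 1 → (((fun q => q = p) ∘ fun q => q ∘ boxIncl h) q ↔ False) := by
    intro q hq
    refine iff_false_intro fun hqp => hq ?_
    obtain ⟨i, j, hij⟩ := hbad q hqp
    have hc : Comm ((site hP i.1).atom (q i)) ((site hP j.1).atom (q j)) := by
      rcases hij with ⟨e, hne⟩ | ⟨e, hne⟩
      · rw [e]
        exact comm_neighbours hP (h0 (q i).1.r) rfl (fun e' => hne e'.symm) _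
      · rw [e]
        exact comm_neighbours hP (v0 (q i).1.u) rfl (fun e' => hne e'.symm) _
    exact eq_one_of_comm_self A.five_le (comm_of_le ((win_good hP hL R').atom q)
      ((win_good hP hL R').atom q) ((site_good hP _).atom _) ((site_good hP _).atom _)
      (meet_atom_refines (win_isWin hP hL R' i) q) (meet_atom_refines (win_isWin hP hL R' j) q) hc)
  rw [block_congr _ this, block_false]

/-- A set depends only on the tiles of a square. -/
def Det (R : ℕ) (U : Set Pts) : Prop := ∀ x y, patt R x = patt R y → (x ∈ U ↔ y ∈ U)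

theorem Det.mono {R R' : ℕ} {U : Set Pts} (hU : Det R U) (h : R ≤ R') : Det R' U := fun _ _ e =>
  hU _ _ (funext fun i => congrFun e (boxIncl h i))

theorem exists_det (U : Clo Pts) : ∃ R, Det R (U : Set Pts) := by
  obtain ⟨R, hR⟩ := exists_window (f := fun x => decide (x ∈ (U : Set Pts))) (by
    refine (IsLocallyConstant.iff_exists_open _).2 fun x => ?_
    by_cases hx : x ∈ (U : Set Pts)
    · exact ⟨U, U.isClopen.isOpen, hx, fun y hy => decide_eq_decide.2 (iff_of_true hy hx)⟩
    · exact ⟨(U : Set Pts)ᶜ, U.isClopen.compl.isOpen, hx,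
        fun y hy => decide_eq_decide.2 (iff_of_false hy hx)⟩)
  exact ⟨R, fun x y e => decide_eq_decide.1 (hR x y (patt_eq_iff.1 e))⟩

/-- The patterns of the points of a set. -/
def sel (R : ℕ) (U : Set Pts) (p : Box R → LTile 0) : Prop := ∃ x ∈ U, patt R x = p

theorem sel_patt {R : ℕ} {U : Set Pts} (hU : Det R U) (y : Pts) : sel R U (patt R y) ↔ y ∈ U :=
  ⟨fun ⟨_, hx, e⟩ => (hU _ _ e).1 hx, fun hy => ⟨y, hy, rfl⟩⟩

/-- Blocks of a square compare on the occurring patterns. -/
theorem block_win_congr (R : ℕ) {p q : (Box R → LTile 0) → Prop}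
    (h : ∀ y, p (patt R y) ↔ q (patt R y)) : block (win hP hL R) p = block (win hP hL R) q := by
  refine block_congr _ fun i hi => ?_
  by_contra hne
  refine hi (win_absent hP hL fun y e => hne ?_)
  subst e
  exact h y

theorem block_sel_mono {R R' : ℕ} {U : Set Pts} (hU : Det R U) (h : R ≤ R') :
    block (win hP hL R) (sel R U) = block (win hP hL R') (sel R' U) := by
  rw [← block_congr_hom (win_restrict hP hL h), block_merge]
  refine block_win_congr hP hL R' fun y => ?_
  rw [sel_patt (hU.mono h)]
  exact sel_patt hU y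

/-- The coefficient of a clopen set. -/
noncomputable def val (U : Clo Pts) : Alt n →* Q :=
  block (win hP hL (exists_det U).choose) (sel _ (U : Set Pts))

theorem val_eq (U : Clo Pts) {R : ℕ} (hR : Det R (U : Set Pts)) :
    val hP hL U = block (win hP hL R) (sel R (U : Set Pts)) := by
  have h := (exists_det U).choose_spec
  rw [val, block_sel_mono hP hL h (Nat.le_max_left _ R), ← block_sel_mono hP hL hR (Nat.le_max_right _ _)]

include hP hL in
/-- Lifted levels give a valuation. -/
theorem valuation_of_levels : Nonempty (Valuation A P) := by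
  refine ⟨{ E := val hP hL, good := fun U => win_good hP hL _ _, top := ?_, inter := fun U V => ?_,
            union := fun U V hUV a => ?_, translate := fun U V v hV => ?_, base := fun U t hU a => ?_ }⟩
  · have h : Det 0 ((⊤ : Clo Pts) : Set Pts) := fun x y _ => by simp
    rw [val_eq hP hL _ h, block_win_congr hP hL 0 (q := fun _ => True) fun y => ?_, block_true]
    rw [sel_patt h]
    simp
  · obtain ⟨R₁, h1⟩ := exists_det U
    obtain ⟨R₂, h2⟩ := exists_det V
    have h1' := h1.mono (le_max_left R₁ R₂)
    have h2' := h2.mono (le_max_right R₁ R₂)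
    have h3 : Det (max R₁ R₂) ((U ⊓ V : Clo Pts) : Set Pts) := fun x y e => by
      simp only [TopologicalSpace.Clopens.coe_inf, Set.mem_inter_iff, h1' x y e, h2' x y e]
    rw [val_eq hP hL U h1', val_eq hP hL V h2', val_eq hP hL _ h3,
      block_win_congr hP hL _ (p := sel _ ((U ⊓ V : Clo Pts) : Set Pts))
        (q := fun i => sel _ (U : Set Pts) i ∧ sel _ (V : Set Pts) i) fun y => ?_]
    · exact block_meet _ _ _
    · rw [sel_patt h3, sel_patt h1', sel_patt h2']
      rfl
  · obtain ⟨R₁, h1⟩ := exists_det U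
    obtain ⟨R₂, h2⟩ := exists_det V
    have h1' := h1.mono (le_max_left R₁ R₂)
    have h2' := h2.mono (le_max_right R₁ R₂)
    have h3 : Det (max R₁ R₂) ((U ⊔ V : Clo Pts) : Set Pts) := fun x y e => by
      simp only [TopologicalSpace.Clopens.coe_sup, Set.mem_union, h1' x y e, h2' x y e]
    rw [val_eq hP hL U h1', val_eq hP hL V h2', val_eq hP hL _ h3,
      block_win_congr hP hL _ (p := sel _ ((U ⊔ V : Clo Pts) : Set Pts))
        (q := fun i => sel _ (U : Set Pts) i ∨ sel _ (V : Set Pts) i) fun y => ?_]
    · rw [block_apply, block_apply, block_apply, ← map_mul]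
      refine congrArg (win hP hL (max R₁ R₂)).hom (funext fun i => ?_)
      by_cases hi : sel (max R₁ R₂) (U : Set Pts) i
      · have hi' : ¬ sel (max R₁ R₂) (V : Set Pts) i := by
          obtain ⟨x, hx, rfl⟩ := hi
          rw [sel_patt h2']
          exact Set.disjoint_left.1 hUV hx
        simp [hi, hi']
      · simp [hi]
    · rw [sel_patt h3, sel_patt h1', sel_patt h2']
      rfl
  · obtain ⟨R, hR⟩ := exists_det U
    let R' := R + (v.1.natAbs + v.2.natAbs)
    let g : Box R → Box R' := fun i => ⟨i.1 - v, mem_boxSet.2 (by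
      have := mem_boxSet.1 i.2
      simp only [R', Prod.fst_sub, Prod.snd_sub]
      omega)⟩
    have hmem : ∀ y, y ∈ (V : Set Pts) ↔ sys.sh (-v) y ∈ (U : Set Pts) := fun y => by
      rw [hV]; rfl
    have hpatt : ∀ y, patt R' y ∘ g = patt R (sys.sh (-v) y) := fun y => funext fun i =>
      Subtype.ext (by
        show tilesOf y (i.1 - v) = tilesOf (sys.sh (-v) y) i.1
        rw [tilesOf_sh, ← sub_eq_add_neg])
    have hRV : Det R' (V : Set Pts) := fun x y e => by
      rw [hmem, hmem]
      exact hR _ _ (by rw [← hpatt, ← hpatt, e])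
    obtain ⟨J, hJ, hJg⟩ := exists_pshift (win_good hP hL R) (Amp.Shift.unit A v)
    have hJw : IsWin hP (fun i : Box R => i.1 - v) J := fun i =>
      hJ.refines (site_between hP (by simp)) (win_isWin hP hL R i)
    have hJe : J.hom = ((win hP hL R').merge fun q => q ∘ g).hom :=
      hJw.unique hJg ((win_isWin hP hL R').restrict g) ((win_good hP hL R').merge _)
    rw [val_eq hP hL U hR, val_eq hP hL V hRV]
    have := hJ.shift_block (sel R (U : Set Pts))
    rw [block_congr_hom hJe, block_merge] at this
    convert this using 1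
    refine block_win_congr hP hL R' fun y => ?_
    rw [sel_patt hRV, Function.comp_apply, hpatt, sel_patt hR, hmem]
  · have h : Det 0 (U : Set Pts) := fun x y e => by
      rw [hU, hU]
      have := patt_eq_iff.1 e 0 (by simp) (by simp)
      rw [this]
    let o : Box 0 := ⟨0, zero_mem_boxSet 0⟩
    have hs : (site hP (0 : Lat)).hom = P.hom :=
      ((site_shift hP 0).unique (R := P) (by simpa using PShift.zero hP))
    rw [val_eq hP hL U h, block_win_congr hP hL 0 (q := (fun t' => t' = t) ∘ fun p => p o) fun y => ?_,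
      ← block_merge, block_congr_hom (win_isWin hP hL 0 o), block_congr_hom hs]
    rw [sel_patt h, hU, Function.comp_apply]
    exact ⟨fun e => Subtype.ext e, fun e => congrArg Subtype.val e⟩

end Valuation

end Vale.Agent.P196.Full.Lift
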