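import Vale.Agent.P196.Full.Calculus.Family
import Vale.Agent.P196.Full.Defs

/-!
# P196: the abstract amplified lattice in which the hierarchy is lifted

`u` places an even permutation of the colours on the whole space and `lam f` moves each colour `c`
by the vector `f c` (the sum of `f` being zero). Coefficients are translated by conjugating with
`lam`.
-/

namespace Vale.Agent.P196.Full.Lift

open Calculus

variable {n : ℕ} {Q : Type} [Group Q]

/-- The group generated by the generators whose colours lie in `D`. -/
def colSub (G : Set Q) (col : Q → List (Fin n)) (D : Finset (Fin n)) : Subgroup Q :=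
  Subgroup.closure {g | g ∈ G ∧ ∀ c ∈ col g, c ∈ D}

/-- The group in which the hierarchy is lifted. -/
structure Amp (Q : Type) [Group Q] (n : ℕ) where
  /-- The generators. -/
  G : Set Q
  /-- The colours of a generator. -/
  col : Q → List (Fin n)
  closed : Closed G col
  /-- Generators on disjoint colours commute. -/
  gen_comm : ∀ g ∈ G, ∀ h ∈ G, (∀ c ∈ col g, c ∉ col h) → Commute g h
  /-- Permutations of the colours over the whole space. -/
  u : Alt n →* Q
  u_mem : ∀ a b c (h : Dist a b c) (D : Finset (Fin n)), a ∈ D → b ∈ D → c ∈ D → 5 ≤ D.card →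
    u (cyc a b c h) ∈ colSub G col D
  /-- Translations of the colours, with total translation zero. -/
  lam : (Fin n → Lat) → Q
  lam_add : ∀ f g : Fin n → Lat, ∑ c, f c = 0 → ∑ c, g c = 0 → lam (f + g) = lam f * lam g
  lam_mem : ∀ (a b : Fin n) (v : Lat) (D : Finset (Fin n)), a ≠ b → a ∈ D → b ∈ D → 4 ≤ D.card →
    lam (Pi.single a v - Pi.single b v) ∈ colSub G col D
  lam_conj : ∀ (π : Alt n) (f : Fin n → Lat), ∑ c, f c = 0 →
    u π * lam f * (u π)⁻¹ = lam (f ∘ ((π : Equiv.Perm (Fin n))⁻¹ : Equiv.Perm (Fin n)))

namespace Amp

variable (A : Amp Q n)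

/-- The group attached to a set of colours. -/
def On (D : Finset (Fin n)) : Subgroup Q := colSub A.G A.col D

/-- A coefficient that is carried by the colours it moves. -/
structure Good (e : Alt n →* Q) : Prop where
  unit : Meet e A.u e
  mem : ∀ a b c (h : Dist a b c) (D : Finset (Fin n)), a ∈ D → b ∈ D → c ∈ D → 5 ≤ D.card →
    e (cyc a b c h) ∈ A.On D

/-- `f` is `e` translated by `v`: on three colours it is the conjugate by any translation moving
these colours by `v`. -/
def Shift (v : Lat) (e f : Alt n →* Q) : Prop :=
  ∀ a b c (h : Dist a b c) (g : Fin n → Lat), ∑ d, g d = 0 → g a = v → g b = v → g c = v →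
    f (cyc a b c h) = A.lam g * e (cyc a b c h) * (A.lam g)⁻¹

end Amp

open Classical in
/-- The union of the blocks satisfying a condition. -/
noncomputable def block {u : Alt n →* Q} {I : Type*} (P : Part u I) (p : I → Prop) :
    Alt n →* Q :=
  (P.merge fun i => decide (p i)).atom true

/-- A partition all of whose unions of blocks are good. -/
def GoodPart (A : Amp Q n) {u : Alt n →* Q} {I : Type*} (P : Part u I) : Prop :=
  ∀ p : I → Prop, A.Good (block P p)

end Vale.Agent.P196.Full.Lift
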