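import Vale.Agent.P196.Full.Lift.Amp

/-!
# P196: good coefficients of an amplified lattice

Good coefficients are separated from one another, are closed under meets and orthogonal sums, and
partitions made of them are local, so the calculus applies to them.
-/

namespace Vale.Agent.P196.Full.Calculus

open Equiv Equiv.Perm
open scoped commutatorElement

variable {n : ℕ}

/-- A subgroup with the three-cycles inside a set of colours has every element supported there. -/
lemma mem_of_support (K : Subgroup (Alt n)) (S : Finset (Fin n))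
    (hK : ∀ a b c (h : Dist a b c), a ∈ S → b ∈ S → c ∈ S → cyc a b c h ∈ K) (g : Alt n)
    (hg : ∀ x, (g : Perm (Fin n)) x ≠ x → x ∈ S) : g ∈ K := by
  induction hm : (g : Perm (Fin n)).support.card using Nat.strong_induction_on generalizing g with
  | _ m ih =>
  by_cases h1 : (g : Perm (Fin n)) = 1
  · rw [show g = 1 from Subtype.ext h1]; exact one_mem K
  obtain ⟨x, hx⟩ : ∃ x, (g : Perm (Fin n)) x ≠ x := by
    by_contra h
    push Not at h
    exact h1 (Equiv.ext fun x => by simpa using h x)
  -- an even permutation moves a third point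
  obtain ⟨z, hz, hzx, hzy⟩ :
      ∃ z, (g : Perm (Fin n)) z ≠ z ∧ z ≠ x ∧ z ≠ (g : Perm (Fin n)) x := by
    by_contra h
    push Not at h
    have hs : (g : Perm (Fin n)).support = {x, (g : Perm (Fin n)) x} := by
      ext z
      simp only [Perm.mem_support, Finset.mem_insert, Finset.mem_singleton]
      refine ⟨fun hz => ?_, ?_⟩
      · by_cases e : z = x
        · exact Or.inl e
        · exact Or.inr (h z hz e)
      · rintro (rfl | rfl)
        · exact hx
        · exact fun e => hx ((g : Perm (Fin n)).injective e)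
    have h2 : ((g : Perm (Fin n)).support).card = 2 := by
      rw [hs, Finset.card_pair (Ne.symm hx)]
    have := (card_support_eq_two.1 h2).sign_eq
    rw [mem_alternatingGroup.1 g.2] at this
    exact absurd this (by decide)
  have hd : Dist x ((g : Perm (Fin n)) x) z := ⟨Ne.symm hx, Ne.symm hzy, Ne.symm hzx⟩
  have hy : (g : Perm (Fin n)) ((g : Perm (Fin n)) x) ≠ (g : Perm (Fin n)) x :=
    fun e => hx ((g : Perm (Fin n)).injective e)
  have hc := hK _ _ _ hd (hg x hx) (hg _ hy) (hg z hz)
  set c := cyc x ((g : Perm (Fin n)) x) z hd with hcdef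
  have fixx : ((c⁻¹ * g : Alt n) : Perm (Fin n)) x = x := by
    rw [Subgroup.coe_mul, Perm.mul_apply, Subgroup.coe_inv, Perm.inv_eq_iff_eq, hcdef,
      cyc_apply_fst]
  have hsub : ∀ w, ((c⁻¹ * g : Alt n) : Perm (Fin n)) w ≠ w → (g : Perm (Fin n)) w ≠ w := by
    intro w hw e
    apply hw
    rw [Subgroup.coe_mul, Perm.mul_apply, e, Subgroup.coe_inv, Perm.inv_eq_iff_eq, hcdef,
      cyc_apply_of_ne _ _ _ _ (fun q => hx (by rw [q] at e; exact e))
        (fun q => hy (by rw [q] at e; exact e)) (fun q => hz (by rw [q] at e; exact e))]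
  have hlt : ((c⁻¹ * g : Alt n) : Perm (Fin n)).support.card < m := by
    rw [← hm]
    refine Finset.card_lt_card ⟨fun w hw => ?_, fun hs => ?_⟩
    · rw [Perm.mem_support] at hw ⊢; exact hsub w hw
    · exact Perm.mem_support.1 (hs (Perm.mem_support.2 hx)) fixx
  have := ih _ hlt (c⁻¹ * g) (fun w hw => hg w (hsub w hw)) rfl
  simpa using mul_mem hc this

/-- Separation of three-cycles is separation. -/
lemma CSep.to_sep {H : Type*} [Group H] {e f : Alt n →* H} (h : CSep e f) : Sep e f := by
  intro a b hab
  have key : ∀ p q u (d : Dist p q u), (b : Perm (Fin n)) p = p → (b : Perm (Fin n)) q = q →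
      (b : Perm (Fin n)) u = u → Commute (e (cyc p q u d)) (f b) := by
    intro p q u d hp hq hu
    have : b ∈ (Subgroup.centralizer {e (cyc p q u d)}).comap f := by
      refine mem_of_support _ (Finset.univ \ {p, q, u}) (fun s t v d' hs ht hv => ?_) b fun x hx => ?_
      · simp only [Finset.mem_sdiff, Finset.mem_univ, true_and, Finset.mem_insert,
          Finset.mem_singleton] at hs ht hv
        rw [Subgroup.mem_comap, Subgroup.mem_centralizer_singleton_iff]
        exact (h p q u d s t v d' (by simpa using hs) (by simpa using ht) (by simpa using hv)).symm.eq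
      · simp only [Finset.mem_sdiff, Finset.mem_univ, true_and, Finset.mem_insert,
          Finset.mem_singleton, not_or]
        exact ⟨fun e => hx (e ▸ hp), fun e => hx (e ▸ hq), fun e => hx (e ▸ hu)⟩
    rw [Subgroup.mem_comap, Subgroup.mem_centralizer_singleton_iff] at this
    exact this.symm
  have : a ∈ (Subgroup.centralizer {f b}).comap e := by
    refine mem_of_support _ (Finset.univ.filter fun x => (b : Perm (Fin n)) x = x)
      (fun p q u d hp hq hu => ?_) a fun x hx => ?_
    · simp only [Finset.mem_filter, Finset.mem_univ, true_and] at hp hq hu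
      rw [Subgroup.mem_comap, Subgroup.mem_centralizer_singleton_iff]
      exact (key p q u d hp hq hu).eq
    · simp only [Finset.mem_filter, Finset.mem_univ, true_and]
      exact (hab x).resolve_left hx
  rw [Subgroup.mem_comap, Subgroup.mem_centralizer_singleton_iff] at this
  exact this

/-- Acting on a coefficient by inner automorphisms is having it as meet with the unit. -/
lemma meet_iff_conj {H : Type*} [Group H] {e u : Alt n →* H} :
    Meet e u e ↔ ∀ a b, u b * e a * (u b)⁻¹ = e (b * a * b⁻¹) := by
  constructor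
  · intro h a b
    have h' := h a⁻¹ b
    simp only [commutatorElement_def, map_inv, map_mul, inv_inv] at h' ⊢
    calc u b * e a * (u b)⁻¹ = e a * ((e a)⁻¹ * u b * e a * (u b)⁻¹) := by group
      _ = _ := by rw [h']; group
  · intro h a b
    have h' := h a⁻¹ b
    simp only [map_inv, map_mul] at h'
    simp only [commutatorElement_def, map_mul, map_inv]
    calc e a * u b * (e a)⁻¹ * (u b)⁻¹ = e a * (u b * (e a)⁻¹ * (u b)⁻¹) := by group
      _ = _ := by rw [h']; group

/-- A meet is moved as its two members are. -/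
lemma Meet.conj_map {H : Type*} [Group H] (hn : 5 ≤ n) {e f g : Alt n →* H} (hg : Meet e f g)
    (σ : MulAut H) (τ : MulAut (Alt n)) (he : ∀ a, σ (e a) = e (τ a)) (hf : ∀ a, σ (f a) = f (τ a))
    (a : Alt n) : σ (g a) = g (τ a) := by
  have : σ.toMonoidHom.comp g = g.comp τ.toMonoidHom := hom_ext_commutator hn fun a b => by
    show σ (g ⁅a, b⁆) = g (τ ⁅a, b⁆)
    rw [← hg, map_commutatorElement, map_commutatorElement, he, hf, hg]
  exact DFunLike.congr_fun this a

end Vale.Agent.P196.Full.Calculus

namespace Vale.Agent.P196.Full.Lift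

open Calculus Equiv Equiv.Perm
open scoped commutatorElement

variable {n : ℕ} {Q : Type} [Group Q]

namespace Amp

variable (A : Amp Q n)

include A in
lemma five_le : 5 ≤ n := by have := A.closed.colours; omega

lemma lam_zero : A.lam 0 = 1 := by
  have := A.lam_add 0 0 (by simp) (by simp)
  rw [add_zero] at this
  exact mul_eq_left.1 this.symm

lemma lam_neg (f : Fin n → Lat) (hf : ∑ c, f c = 0) : A.lam (-f) = (A.lam f)⁻¹ := by
  refine eq_inv_of_mul_eq_one_left ?_
  rw [← A.lam_add (-f) f (by simp [Finset.sum_neg_distrib, hf]) hf, neg_add_cancel, A.lam_zero]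

lemma on_mono {D D' : Finset (Fin n)} (h : D ⊆ D') : A.On D ≤ A.On D' :=
  Subgroup.closure_mono fun _ hg => ⟨hg.1, fun c hc => h (hg.2 c hc)⟩

/-- Groups on disjoint colours commute. -/
lemma on_comm {D D' : Finset (Fin n)} (h : Disjoint D D') {x y : Q} (hx : x ∈ A.On D)
    (hy : y ∈ A.On D') : Commute x y := by
  have h1 : A.On D ≤ Subgroup.centralizer {g | g ∈ A.G ∧ ∀ c ∈ A.col g, c ∈ D'} := by
    refine (Subgroup.closure_le _).2 fun g hg => ?_
    rw [SetLike.mem_coe, Subgroup.mem_centralizer_iff]
    exact fun h' hh' => ((A.gen_comm g hg.1 h' hh'.1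
      fun c hc hc' => Finset.disjoint_left.1 h (hg.2 c hc) (hh'.2 c hc')).symm).eq
  have h2 : A.On D' ≤ Subgroup.centralizer (A.On D : Set Q) := by
    refine (Subgroup.closure_le _).2 fun g hg => ?_
    rw [SetLike.mem_coe, Subgroup.mem_centralizer_iff]
    exact fun z hz => ((Subgroup.mem_centralizer_iff.1 (h1 hz)) g hg).symm
  exact (Subgroup.mem_centralizer_iff.1 (h2 hy)) x hx

/-- A translation is carried by the colours it moves. -/
lemma lam_mem' (D : Finset (Fin n)) (hD : 4 ≤ D.card) (f : Fin n → Lat) (hf : ∑ c, f c = 0)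
    (hsupp : ∀ c, c ∉ D → f c = 0) : A.lam f ∈ A.On D := by
  induction hm : (Finset.univ.filter fun c => f c ≠ 0).card using Nat.strong_induction_on
    generalizing f with
  | _ m ih =>
  by_cases h0 : f = 0
  · rw [h0, A.lam_zero]; exact one_mem _
  obtain ⟨a, ha⟩ : ∃ a, f a ≠ 0 := by
    by_contra h; push Not at h; exact h0 (funext h)
  obtain ⟨b, hb, hab⟩ : ∃ b, f b ≠ 0 ∧ b ≠ a := by
    by_contra h
    push Not at h
    rw [Finset.sum_eq_single a (fun b _ hb => by_contra fun hb' => hb (h b hb')) (by simp)] at hf
    exact ha hf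
  have haD : a ∈ D := by_contra fun q => ha (hsupp a q)
  have hbD : b ∈ D := by_contra fun q => hb (hsupp b q)
  set p : Fin n → Lat := Pi.single a (f a) - Pi.single b (f a) with hp
  have hsum : ∑ c, p c = 0 := by
    rw [hp]; simp [Finset.sum_sub_distrib]
  have hrest : ∑ c, (f - p) c = 0 := by simp [Finset.sum_sub_distrib, hf, hsum]
  have hpa : ∀ c, c ≠ a → c ≠ b → p c = 0 := fun c h1 h2 => by simp [hp, h1, h2]
  have h1 : A.lam (f - p) ∈ A.On D := by
    refine ih _ ?_ _ hrest (fun c hc => ?_) rfl
    · rw [← hm]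
      refine Finset.card_lt_card ⟨fun c hc => ?_, fun hs => ?_⟩
      · simp only [Finset.mem_filter, Finset.mem_univ, true_and, Pi.sub_apply] at hc ⊢
        by_cases q1 : c = a
        · exact q1 ▸ ha
        by_cases q2 : c = b
        · exact q2 ▸ hb
        rwa [hpa c q1 q2, sub_zero] at hc
      · have := hs (Finset.mem_filter.2 ⟨Finset.mem_univ a, ha⟩)
        simp [hp, hab] at this
    · rw [Pi.sub_apply, hpa c (fun q => hc (q ▸ haD)) (fun q => hc (q ▸ hbD)), hsupp c hc, sub_zero]
  have := A.lam_add p (f - p) hsum hrest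
  rw [add_sub_cancel] at this
  rw [this]
  exact mul_mem (A.lam_mem a b (f a) D (Ne.symm hab) haD hbD hD) h1

namespace Good

variable {A}

lemma conj_u {e : Alt n →* Q} (he : A.Good e) (a b : Alt n) :
    A.u b * e a * (A.u b)⁻¹ = e (b * a * b⁻¹) := meet_iff_conj.1 he.unit a b

/-- A good coefficient commutes with the group on other colours. -/
lemma comm_on {e : Alt n →* Q} (he : A.Good e) {a b c : Fin n} (h : Dist a b c)
    {D : Finset (Fin n)} (ha : a ∉ D) (hb : b ∉ D) (hc : c ∉ D) {x : Q} (hx : x ∈ A.On D) :
    Commute (e (cyc a b c h)) x := by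
  have key : A.On D ≤ Subgroup.centralizer {e (cyc a b c h)} := by
    refine (Subgroup.closure_le _).2 fun g hg => ?_
    rw [SetLike.mem_coe, Subgroup.mem_centralizer_singleton_iff]
    have hcard : 5 ≤ (Finset.univ \ (A.col g).toFinset : Finset (Fin n)).card := by
      rw [Finset.card_univ_sdiff, Fintype.card_fin]
      have := (A.col g).toFinset_card_le
      have := A.closed.short g hg.1
      have := A.closed.colours
      omega
    have hg' : g ∈ A.On (A.col g).toFinset :=
      Subgroup.subset_closure ⟨hg.1, fun c hc => List.mem_toFinset.2 hc⟩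
    refine ((A.on_comm ?_ (he.mem a b c h _ ?_ ?_ ?_ hcard) hg').symm).eq
    · exact Finset.sdiff_disjoint
    all_goals
      simp only [Finset.mem_sdiff, Finset.mem_univ, true_and, List.mem_toFinset]
      intro q
    exacts [ha (hg.2 a q), hb (hg.2 b q), hc (hg.2 c q)]
  exact (Subgroup.mem_centralizer_singleton_iff.1 (key hx)).symm

lemma csep {e f : Alt n →* Q} (he : A.Good e) (hf : A.Good f) : CSep e f := by
  intro p q u h s t v h' hs ht hv
  refine he.comm_on h (D := Finset.univ \ {p, q, u}) (by simp) (by simp) (by simp) ?_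
  refine hf.mem s t v h' _ ?_ ?_ ?_ ?_
  · simpa using hs
  · simpa using ht
  · simpa using hv
  · rw [Finset.card_univ_sdiff, Fintype.card_fin]
    have : ({p, q, u} : Finset (Fin n)).card ≤ 3 := Finset.card_le_three
    have := A.closed.colours
    omega

/-- Good coefficients are separated. -/
lemma sep {e f : Alt n →* Q} (he : A.Good e) (hf : A.Good f) : Sep e f := (he.csep hf).to_sep

lemma u (A : Amp Q n) : A.Good A.u := ⟨Meet.self A.u, A.u_mem⟩

lemma one (A : Amp Q n) : A.Good (1 : Alt n →* Q) :=
  ⟨fun a b => by simp, fun _ _ _ _ _ _ _ _ _ => one_mem _⟩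

/-- The meet of two good coefficients is good. -/
lemma meet {e f g : Alt n →* Q} (he : A.Good e) (hf : A.Good f) (hg : Meet e f g) : A.Good g := by
  refine ⟨meet_iff_conj.2 fun a b => hg.conj_map A.five_le (MulAut.conj (A.u b))
    (MulAut.conj b) (fun a => he.conj_u a b) (fun a => hf.conj_u a b) a, ?_⟩
  intro c a d h D hc ha hd hD
  obtain ⟨b, hbD, hb⟩ := Finset.exists_of_ssubset (show ({c, a, d} : Finset (Fin n)) ⊂ D from
    ⟨by simp [Finset.insert_subset_iff, hc, ha, hd], fun q => by
      have := (Finset.card_le_card q).trans Finset.card_le_three; omega⟩)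
  obtain ⟨e', heD, he'⟩ := Finset.exists_of_ssubset (show ({c, a, d, b} : Finset (Fin n)) ⊂ D from
    ⟨by simp [Finset.insert_subset_iff, hc, ha, hd, hbD], fun q => by
      have := (Finset.card_le_card q).trans Finset.card_le_four; omega⟩)
  simp only [Finset.mem_insert, Finset.mem_singleton, not_or] at hb he'
  have h1 : Dist a b c := ⟨Ne.symm hb.2.1, hb.1, h.1.symm⟩
  have h2 : Dist c d e' := ⟨h.2.2, Ne.symm he'.2.2.1, Ne.symm he'.1⟩
  rw [← commutator_cyc h1 h2 h (Ne.symm he'.2.1) hb.2.2 (Ne.symm he'.2.2.2), ← hg,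
    commutatorElement_def]
  have m1 := he.mem a b c h1 D ha hbD hc hD
  have m2 := hf.mem c d e' h2 D hc hd heD hD
  exact mul_mem (mul_mem (mul_mem m1 m2) (inv_mem m1)) (inv_mem m2)

/-- An orthogonal sum of good coefficients is good. -/
lemma split {e₀ e₁ e : Alt n →* Q} (h : Split e₀ e₁ e) (h₀ : A.Good e₀) (h₁ : A.Good e₁) :
    A.Good e := by
  refine ⟨meet_iff_conj.2 fun a b => ?_, fun a b c d D ha hb hc hD => ?_⟩
  · rw [h.2, h.2, ← h₀.conj_u, ← h₁.conj_u]; group
  · rw [h.2]; exact mul_mem (h₀.mem a b c d D ha hb hc hD) (h₁.mem a b c d D ha hb hc hD)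

end Good

end Amp

section Parts

variable {A : Amp Q n} {u : Alt n →* Q} {I J : Type*}

/-- A partition with good blocks. -/
lemma good_merge_atom [Finite I] [DecidableEq I] [DecidableEq J] {P : Part u I}
    (h : ∀ i, A.Good (P.atom i)) (f : I → J) (j : J) : A.Good ((P.merge f).atom j) := by
  refine ⟨meet_iff_conj.2 fun a b => ?_, fun a b c d D ha hb hc hD => ?_⟩
  · show _ * P.hom (Pi.mulSingle j a ∘ f) * _ = P.hom (Pi.mulSingle j (b * a * b⁻¹) ∘ f)
    let F : (I → Alt n) →* Q := (MulAut.conj (A.u b)).toMonoidHom.comp P.hom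
    let G : (I → Alt n) →* Q := P.hom.comp
      (MonoidHom.pi fun i => (MulAut.conj b).toMonoidHom.comp (Pi.evalMonoidHom _ i))
    have hFG : F = G := MonoidHom.pi_ext fun i x => by
      show A.u b * P.atom i x * (A.u b)⁻¹ = P.hom _
      rw [(h i).conj_u, Part.atom_apply]
      refine congrArg P.hom (funext fun k => ?_)
      by_cases hk : k = i <;> simp [hk]
    have := DFunLike.congr_fun hFG (Pi.mulSingle j a ∘ f)
    refine this.trans (congrArg P.hom (funext fun k => ?_))
    by_cases hk : f k = j <;> simp [hk]
  · rw [Part.atom_apply, Part.merge_apply]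
    show _ ∈ A.On D
    refine Subgroup.pi_mem_of_mulSingle_mem (H := (A.On D).comap P.hom) _ fun i => ?_
    rw [Subgroup.mem_comap, ← Part.atom_apply]
    by_cases hi : f i = j
    · simpa [hi] using (h i).mem a b c d D ha hb hc hD
    · simp [hi]

lemma block_eq (P : Part u I) (p : I → Prop) [DecidablePred p] :
    block P p = (P.merge fun i => decide (p i)).atom true := by
  unfold block; congr 2; funext i; exact decide_eq_decide.2 Iff.rfl

lemma goodPart_of_atoms [Finite I] [DecidableEq I] {P : Part u I}
    (h : ∀ i, A.Good (P.atom i)) : GoodPart A P := by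
  classical
  intro p
  rw [block_eq]
  exact good_merge_atom h _ _

lemma atom_eq_block [DecidableEq I] (P : Part u I) (i : I) :
    P.atom i = block P (fun i' => i' = i) := by
  rw [block_eq]
  refine MonoidHom.ext fun a => congrArg P.hom (funext fun k => ?_)
  by_cases hk : k = i <;> simp [hk]

lemma GoodPart.atom [DecidableEq I] {P : Part u I} (h : GoodPart A P) (i : I) :
    A.Good (P.atom i) := atom_eq_block P i ▸ h _

lemma GoodPart.unit {P : Part u I} (h : GoodPart A P) : A.Good u := by
  have : block P (fun _ => True) = u := by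
    classical
    rw [block_eq]
    refine MonoidHom.ext fun a => ?_
    rw [← P.hom_const]
    exact congrArg P.hom (funext fun k => by simp)
  exact this ▸ h _

lemma GoodPart.merge [Finite I] [DecidableEq I] [Finite J] [DecidableEq J] {P : Part u I}
    (h : GoodPart A P) (f : I → J) : GoodPart A (P.merge f) :=
  goodPart_of_atoms fun j => good_merge_atom h.atom f j

lemma GoodPart.joint [Finite I] [Finite J] [DecidableEq I] [DecidableEq J] {P : Part u I}
    {R : Part u J} {T : Part u (I × J)} (hP : GoodPart A P) (hR : GoodPart A R)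
    (hT : Part.IsJoint P R T) : GoodPart A T :=
  goodPart_of_atoms fun z => (hP.atom z.1).meet (hR.atom z.2) (hT.meet z.1 z.2)

/-- Good partitions are local, so the calculus is closed for them. -/
lemma GoodPart.isLocal [DecidableEq I] {P : Part u I} (h : GoodPart A P) :
    Part.Local A.G A.col P := by
  intro g hg i a b c d ha hb hc
  exact ((h.atom i).comm_on d (D := (A.col g).toFinset) (by simpa using ha) (by simpa using hb)
    (by simpa using hc) (Subgroup.subset_closure ⟨hg, fun c hc => List.mem_toFinset.2 hc⟩)).symm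

open Part in
/-- The closure of the calculus: pairwise compatible good partitions have compatible joins. -/
theorem GoodPart.compat_join {K : Type*} [Finite I] [Finite J] [Finite K] [DecidableEq I]
    [DecidableEq J] [DecidableEq K] {P : Part u I} {R : Part u J} {S : Part u K}
    {T : Part u (I × J)} (hP : GoodPart A P) (hR : GoodPart A R) (hS : GoodPart A S)
    (hT : IsJoint P R T) (h₁ : Compat P S) (h₂ : Compat R S) : Compat T S :=
  let ⟨_, hU⟩ := h₁
  let ⟨_, hV⟩ := h₂
  compat_join_of_center A.closed.colours hT hU hV A.closed.center A.closed.gen fun g hg =>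
    ⟨A.col g, A.closed.short g hg, hP.isLocal g hg, hR.isLocal g hg, hS.isLocal g hg⟩

/-- The trivial partition of a good coefficient is good. -/
lemma goodPart_unit (hu : A.Good u) : GoodPart A (Part.unit u : Part u Unit) :=
  goodPart_of_atoms fun i => by
    have : (Part.unit u : Part u Unit).atom i = u := MonoidHom.ext fun a => by
      show u (Pi.mulSingle (M := fun _ : Unit => Alt n) i a default) = u a
      rw [show (default : Unit) = i from rfl, Pi.mulSingle_eq_same]
    rwa [this]

open Part in
/-- A family of good partitions, pairwise compatible and compatible with a base partition, has a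
good common refinement with it. -/
theorem exists_good_joint : ∀ {m : ℕ} {L : Type} [Finite L] [DecidableEq L] {X : Part u L},
    GoodPart A X → ∀ {K : Fin m → Type} [∀ a, Finite (K a)] [∀ a, DecidableEq (K a)]
    (P : ∀ a, Part u (K a)), (∀ a, GoodPart A (P a)) → (∀ a b, a < b → Compat (P a) (P b)) →
    (∀ a, Compat X (P a)) →
    ∃ R : Part u (L × ∀ a, K a), Refines R Prod.fst X ∧
      (∀ a, Refines R (fun z => z.2 a) (P a)) ∧ GoodPart A R := by
  intro m
  induction m with
  | zero =>
    intro L _ _ X hX K _ _ P _ _ _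
    classical
    exact ⟨X.merge fun l => (l, fun a => a.elim0), rfl, fun a => a.elim0, hX.merge _⟩
  | succ m ih =>
    intro L _ _ X hX K _ _ P hP hpair hXP
    classical
    obtain ⟨T, hT⟩ := hXP 0
    obtain ⟨R, h1, h2, hR⟩ := ih (hX.joint (hP 0) hT) (fun a => P a.succ) (fun a => hP _)
      (fun a b hab => hpair _ _ (Fin.succ_lt_succ_iff.2 hab))
      (fun a => hX.compat_join (hP 0) (hP a.succ) hT (hXP a.succ) (hpair 0 a.succ (Fin.succ_pos a)))
    refine ⟨R.merge fun z => (z.1.1, Fin.cons z.1.2 z.2), ?_, ?_, hR.merge _⟩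
    · refine MonoidHom.ext fun y => ?_
      simp only [← hT.1, merge_apply]
      rw [← h1, merge_apply]; rfl
    · intro a
      refine Fin.cases ?_ (fun a => ?_) a
      · refine MonoidHom.ext fun y => ?_
        simp only [← hT.2, merge_apply]
        rw [← h1, merge_apply]; rfl
      · refine MonoidHom.ext fun y => ?_
        rw [← h2 a, merge_apply, merge_apply, merge_apply]
        refine congrArg R.hom (funext fun z => ?_)
        simp [Function.comp_apply]

open Part in
/-- The same without a base partition. -/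
theorem exists_good_joint' (hu : A.Good u) {m : ℕ} {K : Fin m → Type} [∀ a, Finite (K a)]
    [∀ a, DecidableEq (K a)] (P : ∀ a, Part u (K a)) (hP : ∀ a, GoodPart A (P a))
    (hpair : ∀ a b, a < b → Compat (P a) (P b)) :
    ∃ R : Part u (∀ a, K a), (∀ a, Refines R (fun z => z a) (P a)) ∧ GoodPart A R := by
  classical
  have hone : ∀ a, Refines (P a) (fun _ => ()) (Part.unit u : Part u Unit) :=
    fun a => MonoidHom.ext fun y => (P a).hom_const (y ())
  obtain ⟨R, -, h2, hR⟩ := exists_good_joint (goodPart_unit hu) P hP hpair fun a =>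
    (Compat.of_refines (hone a)).symm
  exact ⟨R.merge Prod.snd, fun a => h2 a, hR.merge _⟩

end Parts

end Vale.Agent.P196.Full.Lift
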