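import Vale.Agent.P196.Full.Lift.Shift

/-!
# P196: translations of partitions

A partition with good blocks is translated block by block; translation respects merging,
refinement and common refinements.
-/

namespace Vale.Agent.P196.Full.Lift

open Calculus Equiv Equiv.Perm

variable {n : ℕ} {Q : Type} [Group Q] {A : Amp Q n} {v w : Lat}
variable {u u' u'' : Alt n →* Q} {I J : Type*} [DecidableEq I] [DecidableEq J]

/-- The blocks of the second partition are the translated blocks of the first. -/
def PShift (A : Amp Q n) (v : Lat) (P : Part u I) (P' : Part u' I) : Prop :=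
  ∀ i, A.Shift v (P.atom i) (P'.atom i)

namespace PShift

variable {P : Part u I} {P' : Part u' I} {P'' : Part u'' I}

/-- The translated partition on tuples supported where the translation is `v`. -/
lemma hom_eq [Finite I] (h : PShift A v P P') {g : Fin n → Lat} (hg : ∑ d, g d = 0)
    (y : I → Alt n) (hy : ∀ i a, (y i : Perm (Fin n)) a ≠ a → g a = v) :
    P'.hom y = A.lam g * P.hom y * (A.lam g)⁻¹ :=
  Subgroup.pi_mem_of_mulSingle_mem
    (H := P'.hom.eqLocus ((MulAut.conj (A.lam g)).toMonoidHom.comp P.hom)) y fun i =>
    (h i).apply_eq hg (y i) (hy i)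

lemma merge [Finite I] (h : PShift A v P P') (f : I → J) : PShift A v (P.merge f) (P'.merge f) := by
  intro j a b c d g hg ha hb hc
  refine h.hom_eq hg (Pi.mulSingle j (cyc a b c d) ∘ f) fun i x hx => ?_
  by_contra hne
  apply hx
  rw [Function.comp_apply]
  by_cases hi : f i = j
  · rw [hi, Pi.mulSingle_eq_same]
    exact cyc_apply_of_ne a b c d (fun q => hne (q ▸ ha)) (fun q => hne (q ▸ hb))
      (fun q => hne (q ▸ hc))
  · rw [Pi.mulSingle_eq_of_ne hi]; rfl

lemma shift_block [Finite I] (h : PShift A v P P') (p : I → Prop) :
    A.Shift v (block P p) (block P' p) := by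
  classical
  rw [block_eq, block_eq]
  exact h.merge _ true

/-- The units are translates of one another. -/
lemma unit [Finite I] (h : PShift A v P P') : A.Shift v u u' := by
  intro a b c d g hg ha hb hc
  rw [← P'.hom_const, ← P.hom_const]
  refine h.hom_eq hg _ fun i x hx => ?_
  by_contra hne
  exact hx (cyc_apply_of_ne a b c d (fun q => hne (q ▸ ha)) (fun q => hne (q ▸ hb))
    (fun q => hne (q ▸ hc)))

lemma good [Finite I] (h : PShift A v P P') (hP : GoodPart A P) : GoodPart A P' :=
  goodPart_of_atoms fun i => (h i).good (hP.atom i)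

lemma symm (h : PShift A v P P') : PShift A (-v) P' P := fun i => (h i).symm

lemma add (h : PShift A v P P') (h' : PShift A w P' P'') : PShift A (v + w) P P'' :=
  fun i => (h i).add (h' i)

lemma zero [Finite I] (hP : GoodPart A P) : PShift A 0 P P :=
  fun i => Amp.Shift.of_good_zero (hP.atom i)

lemma unique [Finite I] {R : Part u' I} (h : PShift A v P P') (h' : PShift A v P R) :
    P'.hom = R.hom :=
  Part.hom_ext fun i => (h i).unique (h' i)

/-- Translation respects common refinements. -/
lemma isJoint [Finite I] [Finite J] {R : Part u J} {R' : Part u' J} {T : Part u (I × J)}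
    {T' : Part u' (I × J)} (hP : PShift A v P P') (hR : PShift A v R R') (hT : PShift A v T T')
    (h : Part.IsJoint P R T) : Part.IsJoint P' R' T' := by
  constructor
  · refine Part.hom_ext fun i => (Amp.Shift.unique ?_ (hP i))
    have := hT.merge Prod.fst i
    rwa [show (T.merge Prod.fst).atom i = P.atom i from
      MonoidHom.ext fun a => by rw [Part.atom_apply, Part.atom_apply, h.1]] at this
  · refine Part.hom_ext fun j => (Amp.Shift.unique ?_ (hR j))
    have := hT.merge Prod.snd j
    rwa [show (T.merge Prod.snd).atom j = R.atom j from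
      MonoidHom.ext fun a => by rw [Part.atom_apply, Part.atom_apply, h.2]] at this

/-- Translation respects refinement. -/
lemma refines [Finite I] [Finite J] {R : Part u J} {R' : Part u' J} {f : I → J}
    (hP : PShift A v P P') (hR : PShift A v R R') (h : Part.Refines P f R) :
    Part.Refines P' f R' := by
  refine Part.hom_ext fun j => (Amp.Shift.unique ?_ (hR j))
  have := hP.merge f j
  rwa [show (P.merge f).atom j = R.atom j from
    MonoidHom.ext fun a => by rw [Part.atom_apply, Part.atom_apply, h]] at this

end PShift

/-- A partition with good blocks can be translated along with its unit. -/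
theorem exists_pshift [Finite I] {P : Part u I} (hP : GoodPart A P) (hu : A.Shift v u u') :
    ∃ P' : Part u' I, PShift A v P P' ∧ GoodPart A P' := by
  have := Fintype.ofFinite I
  choose f hf hfg using fun i => A.exists_shift v (hP.atom i)
  have hcomm : Pairwise fun i j => ∀ a b, Commute (f i a) (f j b) :=
    fun i j hij => (hf i).comm (hf j) (P.comm_atom hij)
  let Θ : (I → Alt n) →* Q := MonoidHom.noncommPiCoprod f hcomm
  have hΘ : ∀ i, Θ.comp (MonoidHom.mulSingle (fun _ : I => Alt n) i) = f i :=
    fun i => MonoidHom.ext fun a => MonoidHom.noncommPiCoprod_mulSingle _ (hcomm := hcomm) i a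
  let u₁ : Alt n →* Q := Θ.comp (MonoidHom.pi fun _ : I => MonoidHom.id (Alt n))
  let R : Part u₁ I := ⟨Θ, fun _ => rfl⟩
  have hR : PShift A v P R := fun i => by
    show A.Shift v _ (Θ.comp (MonoidHom.mulSingle (fun _ : I => Alt n) i))
    rw [hΘ]; exact hf i
  have hunit : u₁ = u' := hR.unit.unique hu
  subst hunit
  exact ⟨R, hR, hR.good hP⟩

/-- Translation respects compatibility. -/
theorem PShift.compat [Finite I] [Finite J] {P : Part u I} {P' : Part u' I} {R : Part u J}
    {R' : Part u' J} (hP : PShift A v P P') (hR : PShift A v R R') (hPg : GoodPart A P)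
    (hRg : GoodPart A R) (h : Part.Compat P R) : Part.Compat P' R' := by
  obtain ⟨T, hT⟩ := h
  obtain ⟨T', hT', -⟩ := exists_pshift (hPg.joint hRg hT) (v := v) (u' := u') hP.unit
  exact ⟨T', hP.isJoint hR hT' hT⟩

end Vale.Agent.P196.Full.Lift
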