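import Vale.Agent.P196.Full.Lift.Amp
import Vale.Agent.P196.Full.Gen
import Vale.Agent.P196.Full.Tiles.Tower

/-!
# P196: what the lift knows at one level

The corner coefficient stands for the points at the corner of a supertile of level `s`; its
partition gives the supertile. Matching is known only as equality of the colour blocks of two
neighbouring supertiles: nothing is said about the compatibility of their tiles.
-/

namespace Vale.Agent.P196.Full.Lift

open Calculus Tiles

variable {n : ℕ} {Q : Type} [Group Q]

open Classical in
/-- The lifted grid of level `s` over the partition `P` by the tiles at the origin. -/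
structure Level (A : Amp Q n) (P : Part A.u (LTile 0)) (s : ℕ) where
  /-- The coefficient of the corners of the supertiles. -/
  unit : Alt n →* Q
  /-- The position of the origin in its supertile. -/
  cells : Part A.u (Fin (width s) × Fin (width s))
  cells_good : GoodPart A cells
  cells_shift : ∀ c, A.Shift (((c.1 : ℕ) : ℤ), ((c.2 : ℕ) : ℤ)) unit (cells.atom c)
  /-- The supertile at a corner. -/
  tiles : Part unit (LTile s)
  tiles_good : GoodPart A tiles
  match_h : ∀ γ : Col HL, A.Shift ((width s : ℤ), 0) (block tiles fun T => T.1.r = γ)
    (block tiles fun T => T.1.l = γ)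
  match_v : ∀ γ : Col VL, A.Shift (0, (width s : ℤ)) (block tiles fun T => T.1.u = γ)
    (block tiles fun T => T.1.d = γ)
  /-- The tile at the origin is the descendant of the supertile. -/
  site : ∀ (c : Fin (width s) × Fin (width s)) (T : LTile s) (t : LTile 0) (f : Alt n →* Q),
    A.Shift (((c.1 : ℕ) : ℤ), ((c.2 : ℕ) : ℤ)) (tiles.atom T) f →
    Meet f (P.atom t) (if desc 0 s T.1 c.1 c.2 = t.1 then f else 1)

/-- Every level can be reached from the one below. -/
def StepGoal (A : Amp Q n) (P : Part A.u (LTile 0)) : Prop :=
  ∀ s, Nonempty (Level A P s) → Nonempty (Level A P (s + 1))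

/-- The lattice acts on the clopen sets of the subshift through good coefficients. -/
structure Valuation (A : Amp Q n) (P : Part A.u (LTile 0)) where
  /-- The coefficient of a clopen set. -/
  E : Clo Pts → (Alt n →* Q)
  good : ∀ U, A.Good (E U)
  top : E ⊤ = A.u
  inter : ∀ U V : Clo Pts, Meet (E U) (E V) (E (U ⊓ V))
  union : ∀ U V : Clo Pts, Disjoint (U : Set Pts) (V : Set Pts) → ∀ a,
    E (U ⊔ V) a = E U a * E V a
  translate : ∀ (U V : Clo Pts) (v : Lat), (V : Set Pts) = sys.translate v U →
    A.Shift v (E U) (E V)
  base : ∀ (U : Clo Pts) (t : LTile 0), (∀ x : Pts, x ∈ (U : Set Pts) ↔ tilesOf x 0 = t.1) →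
    ∀ a, E U a = block P (fun t' => t' = t) a

end Vale.Agent.P196.Full.Lift
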