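import Vale.Agent.P196.Full.Lift.Relators.Ext
import Vale.Agent.P196.Full.Lift.Relators.Phi
import Vale.Agent.P196.Full.Lift.Central.Relators

/-!
# P196: a valuation satisfies the relators of the universal group

`exists_phi` gives the generators, `urel_lift` the relators. A relator of a frame is split over the
fibres of a fine phase; there the frame has all colours, and its generators extend to a copy of the
alternating group.
-/

namespace Vale.Agent.P196.Full.Lift

open Calculus Tiles

variable {n : ℕ} {Q : Type} [Group Q] {A : Amp Q n} {P : Part A.u (LTile 0)}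

theorem coe_cyc (a b c : Fin n) (h : Dist a b c) :
    ((cyc a b c h : Alt n) : Equiv.Perm (Fin n)) = cyc3 a b c := rfl

namespace Valuation

variable (V : Valuation A P)

/-- The generators are well defined. -/
theorem exists_phi : ∃ φ : Gen Pts n → Q, ∀ (g : Gen Pts n) (f : Fin n → Lat), ∑ x, f x = 0 →
    f g.p.2 = g.p.1 → f g.q.2 = g.q.1 → f g.r.2 = g.r.1 →
    φ g = A.lam f * V.E g.U (cyc g.p.2 g.q.2 g.r.2 g.tri) * (A.lam f)⁻¹ :=
  ⟨V.phi, V.phi_spec⟩

variable {L : Finset Lat} (U : Clo Pts)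

/-- The generators of a frame with all colours. -/
noncomputable def frameT (p q r : ↥L × Fin n) : Q :=
  open Classical in
  if h : Dist p.2 q.2 r.2 then V.phi ⟨U, (↑p.1, p.2), (↑q.1, q.2), (↑r.1, r.2), h⟩ else 1

theorem dist_of_tri {a b c : ↥L × Fin n} (h : Ext.Tri a b c) : Dist a.2 b.2 c.2 :=
  ⟨h.1, h.2.2, h.2.1⟩

theorem frameT_eq {p q r : ↥L × Fin n} (h : Dist p.2 q.2 r.2) {f : Fin n → Lat}
    (hf : ∑ x, f x = 0) (hp : f p.2 = p.1) (hq : f q.2 = q.1) (hr : f r.2 = r.1) :
    V.frameT U p q r = V.valH U f (cyc p.2 q.2 r.2 h) := by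
  rw [frameT, dif_pos h, V.phi_spec _ f hf hp hq hr]
  rfl

include V in
/-- A translation fitting consistent points. -/
theorem exists_vec_points (l : List (↥L × Fin n)) (hl : l.length ≤ 6)
    (hc : ∀ p ∈ l, ∀ q ∈ l, p.2 = q.2 → p = q) :
    ∃ f : Fin n → Lat, ∑ x, f x = 0 ∧ ∀ p ∈ l, f p.2 = p.1 := by
  classical
  obtain ⟨f, hf, h⟩ := exists_vec (l.map Prod.snd).toFinset
    (lt_of_le_of_lt (l.map Prod.snd).toFinset_card_le
      (by rw [List.length_map]; have := V.eight_le; omega))
    (fun x => if h : ∃ p ∈ l, p.2 = x then ((h.choose.1 : ↥L) : Lat) else 0)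
  refine ⟨f, hf, fun p hp => ?_⟩
  have hex : ∃ q ∈ l, q.2 = p.2 := ⟨p, hp, rfl⟩
  rw [h _ (List.mem_toFinset.2 (List.mem_map.2 ⟨p, hp, rfl⟩)), dif_pos hex,
    hc _ hex.choose_spec.1 _ hp hex.choose_spec.2]

include V in
theorem exists_vec_tri {a b c : ↥L × Fin n} (h : Ext.Tri a b c) :
    ∃ f : Fin n → Lat, ∑ x, f x = 0 ∧ f a.2 = a.1 ∧ f b.2 = b.1 ∧ f c.2 = c.1 := by
  obtain ⟨f, hf, hv⟩ := V.exists_vec_points [a, b, c] (by simp) (fun p hp q hq e =>
    h.inj (by simpa using hp) (by simpa using hq) e)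
  exact ⟨f, hf, hv a (by simp), hv b (by simp), hv c (by simp)⟩

theorem rules_frameT (hs : sys.SepV (U : Set Pts) L) : Ext.Rules (V.frameT (L := L) U) where
  rot {a b c} h := by
    obtain ⟨f, hf, ha, hb, hc⟩ := V.exists_vec_tri h
    rw [V.frameT_eq U (dist_of_tri h) hf ha hb hc, V.frameT_eq U (dist_of_tri h.rotate) hf hb hc ha,
      cyc_rotate a.2 b.2 c.2 (dist_of_tri h) (dist_of_tri h.rotate)]
  inv {a b c} h := by
    obtain ⟨f, hf, ha, hb, hc⟩ := V.exists_vec_tri h
    rw [V.frameT_eq U (dist_of_tri h) hf ha hb hc, V.frameT_eq U (dist_of_tri h.flip) hf ha hc hb,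
      ← map_inv]
    exact congrArg _ (Subtype.ext (by rw [Subgroup.coe_inv, coe_cyc, coe_cyc]; exact cyc3_inv h))
  cube {a b c} h := by
    obtain ⟨f, hf, ha, hb, hc⟩ := V.exists_vec_tri h
    rw [V.frameT_eq U (dist_of_tri h) hf ha hb hc, V.frameT_eq U (dist_of_tri h.flip) hf ha hc hb,
      ← map_mul]
    exact congrArg _ (Subtype.ext (by
      rw [Subgroup.coe_mul, coe_cyc, coe_cyc]; exact cyc3_mul_self h))
  mul {a b c d} h hd := by
    obtain ⟨f, hf, hv⟩ := V.exists_vec_points [a, b, c, d] (by simp) (fun p hp q hq e => by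
      obtain ⟨h1, h2, h3⟩ := h
      obtain ⟨h4, h5, h6⟩ := hd
      simp only [List.mem_cons, List.not_mem_nil, or_false] at hp hq
      rcases hp with rfl | rfl | rfl | rfl <;> rcases hq with rfl | rfl | rfl | rfl <;>
        first
          | rfl
          | exact absurd e h1 | exact absurd e.symm h1
          | exact absurd e h2 | exact absurd e.symm h2
          | exact absurd e h3 | exact absurd e.symm h3
          | exact absurd e h4 | exact absurd e.symm h4
          | exact absurd e h5 | exact absurd e.symm h5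
          | exact absurd e h6 | exact absurd e.symm h6)
    have t1 : Ext.Tri a b d := ⟨h.1, hd.1.symm, hd.2.1.symm⟩
    have t2 : Ext.Tri b c d := ⟨h.2.2, hd.2.1.symm, hd.2.2.symm⟩
    rw [V.frameT_eq U (dist_of_tri h) hf (hv a (by simp)) (hv b (by simp)) (hv c (by simp)),
      V.frameT_eq U (dist_of_tri t1) hf (hv a (by simp)) (hv b (by simp)) (hv d (by simp)),
      V.frameT_eq U (dist_of_tri t2) hf (hv b (by simp)) (hv c (by simp)) (hv d (by simp)),
      ← map_mul]
    exact congrArg _ (Subtype.ext (by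
      rw [Subgroup.coe_mul, coe_cyc, coe_cyc, coe_cyc]
      exact cyc3_mul h.1 h.2.1 h.2.2 hd.1 hd.2.1 hd.2.2))
  conj {a b c x y z} h h' hn := by
    rcases hn with hsame | hdiff
    · obtain ⟨f, hf, hv⟩ := V.exists_vec_points [a, b, c, x, y, z] (by simp) (fun p hp q hq e => by
        simp only [List.mem_cons, List.not_mem_nil, or_false] at hp hq
        have cases6 : ∀ {p}, (p = a ∨ p = b ∨ p = c ∨ p = x ∨ p = y ∨ p = z) →
            (p = a ∨ p = b ∨ p = c) ∨ (p = x ∨ p = y ∨ p = z) := by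
          intro p hp; tauto
        rcases cases6 hp with hp | hp <;> rcases cases6 hq with hq | hq
        · exact h.inj hp hq e
        · exact hsame p q hp hq e
        · exact (hsame q p hq hp e.symm).symm
        · exact h'.inj hp hq e)
      have col : ∀ w, (w = x ∨ w = y ∨ w = z) →
          (cyc3 a b c w).2 = cyc3 a.2 b.2 c.2 w.2 ∧
            f (cyc3 a b c w).2 = ((cyc3 a b c w).1 : Lat) := by
        intro w hw
        refine ⟨?_, hv _ ?_⟩
        · by_cases w1 : w = a
          · subst w1; rw [cyc3_fst h.d3.1 h.d3.2.1, cyc3_fst h.1 h.2.1]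
          by_cases w2 : w = b
          · subst w2; rw [cyc3_snd h.d3.2.1 h.d3.2.2, cyc3_snd h.2.1 h.2.2]
          by_cases w3 : w = c
          · subst w3; rw [cyc3_trd, cyc3_trd]
          rw [cyc3_of_ne w1 w2 w3, cyc3_of_ne (fun e => w1 (hsame a w (Or.inl rfl) hw e.symm).symm)
            (fun e => w2 (hsame b w (Or.inr (Or.inl rfl)) hw e.symm).symm)
            (fun e => w3 (hsame c w (Or.inr (Or.inr rfl)) hw e.symm).symm)]
        · by_cases w1 : w = a
          · subst w1; rw [cyc3_fst h.d3.1 h.d3.2.1]; simp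
          by_cases w2 : w = b
          · subst w2; rw [cyc3_snd h.d3.2.1 h.d3.2.2]; simp
          by_cases w3 : w = c
          · subst w3; rw [cyc3_trd]; simp
          rw [cyc3_of_ne w1 w2 w3]
          rcases hw with rfl | rfl | rfl <;> simp
      obtain ⟨cx, vx⟩ := col x (Or.inl rfl)
      obtain ⟨cy, vy⟩ := col y (Or.inr (Or.inl rfl))
      obtain ⟨cz, vz⟩ := col z (Or.inr (Or.inr rfl))
      have t : Ext.Tri (cyc3 a b c x) (cyc3 a b c y) (cyc3 a b c z) := by
        rw [Ext.Tri, cx, cy, cz]; exact D3.map h' _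
      rw [V.frameT_eq U (dist_of_tri h) hf (hv a (by simp)) (hv b (by simp)) (hv c (by simp)),
        V.frameT_eq U (dist_of_tri h') hf (hv x (by simp)) (hv y (by simp)) (hv z (by simp)),
        V.frameT_eq U (dist_of_tri t) hf vx vy vz, ← map_inv, ← map_mul, ← map_mul]
      exact congrArg _ (Subtype.ext (by
        rw [Subgroup.coe_mul, Subgroup.coe_mul, Subgroup.coe_inv, coe_cyc, coe_cyc, coe_cyc,
          conj_cyc3, cx, cy, cz]))
    · have fix : ∀ w, (w = x ∨ w = y ∨ w = z) → cyc3 a b c w = w := fun w hw =>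
        cyc3_of_ne (hdiff a w (Or.inl rfl) hw).symm (hdiff b w (Or.inr (Or.inl rfl)) hw).symm
          (hdiff c w (Or.inr (Or.inr rfl)) hw).symm
      rw [fix x (Or.inl rfl), fix y (Or.inr (Or.inl rfl)), fix z (Or.inr (Or.inr rfl)),
        mul_inv_eq_iff_eq_mul]
      rw [frameT, dif_pos (dist_of_tri h), frameT, dif_pos (dist_of_tri h')]
      refine (V.phi_comm _ _ (Set.disjoint_left.2 fun w hw hw' => ?_)).eq
      obtain ⟨u, hu, hwu, hU⟩ := (Gen.mem_supp_iff _ _).1 hw
      obtain ⟨u', hu', hwu', hU'⟩ := (Gen.mem_supp_iff _ _).1 hw'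
      have pu : ∃ p, (p = a ∨ p = b ∨ p = c) ∧ u = ((p.1 : Lat), p.2) := by
        rcases hu with rfl | rfl | rfl
        exacts [⟨a, Or.inl rfl, rfl⟩, ⟨b, Or.inr (Or.inl rfl), rfl⟩, ⟨c, Or.inr (Or.inr rfl), rfl⟩]
      have qu : ∃ p, (p = x ∨ p = y ∨ p = z) ∧ u' = ((p.1 : Lat), p.2) := by
        rcases hu' with rfl | rfl | rfl
        exacts [⟨x, Or.inl rfl, rfl⟩, ⟨y, Or.inr (Or.inl rfl), rfl⟩, ⟨z, Or.inr (Or.inr rfl), rfl⟩]
      obtain ⟨p, hp, rfl⟩ := pu
      obtain ⟨q, hq, rfl⟩ := qu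
      have hne : (p.1 : Lat) ≠ q.1 := fun e =>
        hdiff p q hp hq (Prod.ext (Subtype.ext e) (hwu.symm.trans hwu'))
      exact Set.disjoint_left.1 (hs p.1 p.1.2 q.1 q.1.2 hne) hU hU'

theorem phi_empty (g : Gen Pts n) (h : (g.U : Set Pts) = ∅) : V.phi g = 1 := by
  have := V.phi_add g g.U g.U (by rw [h]; exact disjoint_bot_left) (by rw [h, Set.union_empty])
  exact left_eq_mul.1 this

/-- A relator inside a frame with all colours. -/
theorem frame_piece_phi {U : Clo Pts} {L : Finset Lat} (h0 : (0 : Lat) ∈ L)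
    (hs : sys.SepV (U : Set Pts) L) {w : FreeGroup (Gen Pts n)}
    (hw : w ∈ Subgroup.closure (FreeGroup.of '' frameGens U (L ×ˢ Finset.univ)))
    (h1 : evalWord sys w = 1) : FreeGroup.lift V.phi w = 1 := by
  classical
  rcases (U : Set Pts).eq_empty_or_nonempty with hA | hA
  · refine (MonoidHom.mem_ker).1 ((Subgroup.closure_le _).2 ?_ hw)
    rintro _ ⟨g, hg, rfl⟩
    rw [SetLike.mem_coe, MonoidHom.mem_ker, FreeGroup.lift_apply_of]
    exact V.phi_empty g (by rw [hg.1, hA])
  have hn := V.eight_le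
  have hax := Ext.axioms_tau2 hn (V.rules_frameT U hs) (⟨0, h0⟩ : ↥L)
  let pt : Off n → ↥L × Fin n := fun a => if h : a.1 ∈ L then (⟨a.1, h⟩, a.2) else (⟨0, h0⟩, a.2)
  have hpt : ∀ a : Off n, a.1 ∈ L → ((pt a).1 : Lat) = a.1 ∧ (pt a).2 = a.2 := fun a ha => by
    simp [pt, ha]
  let B : FreeGroup (Gen Pts n) →* Equiv.Perm (↥L × Fin n) :=
    FreeGroup.lift fun g => cyc3 (pt g.p) (pt g.q) (pt g.r)
  have hgen : ∀ g ∈ frameGens U (L ×ˢ (Finset.univ : Finset (Fin n))),
      D3 (pt g.p) (pt g.q) (pt g.r) ∧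
      V.phi g = Ext.tau2 (V.frameT U) (pt g.p) (pt g.q) (pt g.r) ∧
      g.perm sys = framePerm hs (cyc3 (pt g.p) (pt g.q) (pt g.r)) := by
    intro g hg
    obtain ⟨hU, hp, hq, hr⟩ := mem_frameGens.1 hg
    have ep := hpt _ hp
    have eq := hpt _ hq
    have er := hpt _ hr
    have t : Ext.Tri (pt g.p) (pt g.q) (pt g.r) := by
      rw [Ext.Tri, ep.2, eq.2, er.2]; exact ⟨g.tri.1, g.tri.2.2, g.tri.2.1⟩
    refine ⟨t.d3, ?_, ?_⟩
    · rw [Ext.tau2_tri hn (V.rules_frameT U hs) t, frameT, dif_pos (dist_of_tri t)]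
      refine congrArg V.phi (Gen.eq_mk (by rw [hU]) ?_ ?_ ?_)
      exacts [Prod.ext ep.1.symm ep.2.symm, Prod.ext eq.1.symm eq.2.symm, Prod.ext er.1.symm er.2.symm]
    · refine perm_eq_framePerm hs _ _ _ g hU ?_ ?_ ?_
      exacts [Prod.ext ep.1.symm ep.2.symm, Prod.ext eq.1.symm eq.2.symm, Prod.ext er.1.symm er.2.symm]
  refine word_trivial hax (FreeGroup.lift V.phi) B _ ?_ hw ?_
  · rintro _ ⟨g, hg, rfl⟩
    exact ⟨_, _, _, (hgen g hg).1, by simp [(hgen g hg).2.1], by simp [B]⟩
  · refine framePerm_injective hs hA ?_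
    rw [← h1]
    refine MonoidHom.eqOn_closure (f := (framePerm hs).comp B) (g := evalWord sys) ?_ hw
    rintro _ ⟨g, hg, rfl⟩
    simp only [MonoidHom.comp_apply, B, evalWord, FreeGroup.lift_apply_of]
    exact (hgen g hg).2.2.symm

/-- The values satisfy every relator. -/
theorem urel_lift (T : Tower sys) {w : FreeGroup (Gen Pts n)} (h : URel sys w) :
    FreeGroup.lift V.phi w = 1 := by
  cases h with
  | add g a b ha hb hd hu =>
    simp only [map_mul, map_inv, FreeGroup.lift_apply_of]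
    rw [inv_mul_eq_one, V.phi_add g a.U b.U (by assumption) (by assumption),
      show g.withU a.U = a from Gen.eq_mk rfl ha.1.symm ha.2.1.symm ha.2.2.symm,
      show g.withU b.U = b from Gen.eq_mk rfl hb.1.symm hb.2.1.symm hb.2.2.symm]
  | shift g h v hU hp hq hr =>
    simp only [map_mul, map_inv, FreeGroup.lift_apply_of]
    rw [inv_mul_eq_one, V.phi_shift g h v (by assumption) hp hq hr]
  | comm g h hd =>
    simp only [map_mul, map_inv, FreeGroup.lift_apply_of]
    rw [(V.phi_comm g h (by assumption)).eq, mul_inv_cancel_right, mul_inv_cancel]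
  | frame U F hF w hw h1 =>
    classical
    set L : Finset Lat := insert 0 (F.image Prod.fst)
    obtain ⟨m, hm⟩ := T.exists_sep L
    have : NeZero (T.W m) := ⟨(T.W_pos m).ne'⟩
    have hF' : sys.Separated (U : Set Pts) F := by assumption
    have hw' : w ∈ Subgroup.closure (FreeGroup.of '' frameGens U F) := by assumption
    have piece : ∀ D : Clo Pts, (D : Set Pts) ⊆ U → ConstOn (T.phase m) (D : Set Pts) →
        evalWord sys (restr D w) = 1 → FreeGroup.lift V.phi (restr D w) = 1 := by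
      intro D hD hc he
      refine V.frame_piece_phi (L := L) (Finset.mem_insert_self 0 _) (hm m le_rfl _ hc) ?_ he
      have := Subgroup.mem_map_of_mem (restr D) hw'
      rw [MonoidHom.map_closure, ← Set.image_comp] at this
      refine Subgroup.closure_mono ?_ this
      rintro _ ⟨g, hg, rfl⟩
      have mem : ∀ a : Off n, a ∈ F → a.1 ∈ L :=
        fun a ha => Finset.mem_insert_of_mem (Finset.mem_image_of_mem _ ha)
      exact ⟨g.withU D, mem_frameGens.2 ⟨rfl, mem _ hg.2.1, mem _ hg.2.2.1, mem _ hg.2.2.2⟩,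
        by simp [restr]⟩
    have main : ∀ s : Finset (ZMod (T.W m) × ZMod (T.W m)), ∀ C : Clo Pts, (C : Set Pts) ⊆ U →
        (∀ x ∈ C, T.phase m x ∈ s) → evalWord sys (restr C w) = 1 →
        FreeGroup.lift V.phi (restr C w) = 1 := by
      intro s
      induction s using Finset.induction_on with
      | empty =>
        exact fun C hC hx he => piece C hC (fun x h => absurd (hx x h) (Finset.notMem_empty _)) he
      | @insert a s ha ih =>
        intro C hC hx he
        set D : Clo Pts := C ⊓ ⟨{x | T.phase m x = a}, T.isClopen_fiber m a⟩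
        set E : Clo Pts := C \ D
        have hDC : (D : Set Pts) ⊆ C := Set.inter_subset_left
        have hEC : (E : Set Pts) ⊆ C := Set.sdiff_subset
        have hd : Disjoint (D : Set Pts) (E : Set Pts) := disjoint_sdiff_self_right
        have hu : (C : Set Pts) = (D : Set Pts) ∪ (E : Set Pts) := (Set.union_sdiff_cancel hDC).symm
        rw [restr_add V.phi V.phi_add V.phi_comm hF' (hDC.trans hC) (hEC.trans hC) hd hu hw',
          piece D (hDC.trans hC) (fun x h y h' => h.2.trans h'.2.symm)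
            (evalWord_restr_left hF' (hDC.trans hC) (hEC.trans hC) hd hu hw' he),
          ih E (hEC.trans hC) (fun x h => (Finset.mem_insert.1 (hx x h.1)).resolve_left
              fun e => h.2 ⟨h.1, e⟩)
            (evalWord_restr_left hF' (hEC.trans hC) (hDC.trans hC) hd.symm
              (by rw [hu, Set.union_comm]) hw' he), one_mul]
    have hid : restr U w = w := by
      refine MonoidHom.eqOn_closure (f := restr U) (g := MonoidHom.id _) ?_ hw'
      rintro _ ⟨g, hg, rfl⟩
      simp only [restr, FreeGroup.map.of, MonoidHom.id_apply]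
      exact congrArg _ (Gen.eq_mk (congrArg _ hg.1.symm) rfl rfl rfl)
    have := main Finset.univ U subset_rfl (fun x _ => Finset.mem_univ _) (by rw [hid]; assumption)
    rwa [hid] at this

end Valuation

end Vale.Agent.P196.Full.Lift
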