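import Vale.Agent.P196.Full.Lift.Assemble
import Vale.Agent.P196.Full.Lift.Relators

/-!
# P196: the relators hold for every valuation
-/

namespace Vale.Agent.P196.Full.Lift

open Tiles

variable {n : ℕ} {Q : Type} [Group Q]

/-- The values of the generators through a valuation satisfy the relators. -/
theorem relatorsHold (T : Tower sys) (A : Amp Q n) {P : Calculus.Part A.u (LTile 0)}
    (V : Valuation A P) : RelatorsHold A V :=
  ⟨V.phi, V.phi_spec, fun _ hw => V.urel_lift T hw⟩

end Vale.Agent.P196.Full.Lift
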