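import Vale.Agent.P196.Full.Lift.Basic

/-!
# P196: translations of good coefficients

A good coefficient can be translated by any vector, uniquely; translation keeps good coefficients
good, is additive in the vector, fixes the unit, and respects meets and orthogonal sums.
-/

namespace Vale.Agent.P196.Full.Lift

open Calculus Equiv Equiv.Perm
open scoped commutatorElement

variable {n : ℕ} {Q : Type} [Group Q] {A : Amp Q n}

namespace Amp

/-- A translation moving given colours by `v`, inside a set with one colour to spare. -/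
lemma exists_transl (v : Lat) {S D : Finset (Fin n)} (hSD : S ⊂ D) :
    ∃ g : Fin n → Lat, ∑ x, g x = 0 ∧ (∀ x ∈ S, g x = v) ∧ ∀ x, x ∉ D → g x = 0 := by
  obtain ⟨w, hwD, hwS⟩ := Finset.exists_of_ssubset hSD
  refine ⟨(fun x => if x ∈ S then v else 0) - Pi.single w (S.card • v), ?_, ?_, ?_⟩
  · simp [Finset.sum_sub_distrib]
  · intro x hx
    have : x ≠ w := fun e => hwS (e ▸ hx)
    simp [hx, this]
  · intro x hx
    have h1 : x ≠ w := fun e => hx (e ▸ hwD)
    have h2 : x ∉ S := fun e => hx (hSD.1 e)
    simp [h1, h2]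

lemma exists_transl_list (v : Lat) (l : List (Fin n)) (hl : l.length < n) :
    ∃ g : Fin n → Lat, ∑ x, g x = 0 ∧ ∀ x ∈ l, g x = v := by
  obtain ⟨g, h1, h2, -⟩ := exists_transl v (S := l.toFinset) (D := Finset.univ)
    (Finset.ssubset_univ_iff.2 fun e => by
      have := l.toFinset_card_le
      rw [e, Finset.card_univ, Fintype.card_fin] at this
      omega)
  exact ⟨g, h1, fun x hx => h2 x (List.mem_toFinset.2 hx)⟩

/-- Translations agreeing on the colours of a three-cycle act on it in the same way. -/
lemma Good.lam_conj_eq {e : Alt n →* Q} (he : A.Good e) {a b c : Fin n} (h : Dist a b c)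
    {g g' : Fin n → Lat} (hg : ∑ d, g d = 0) (hg' : ∑ d, g' d = 0) (ha : g a = g' a)
    (hb : g b = g' b) (hc : g c = g' c) :
    A.lam g * e (cyc a b c h) * (A.lam g)⁻¹ = A.lam g' * e (cyc a b c h) * (A.lam g')⁻¹ := by
  have hd : ∑ d, (g - g') d = 0 := by simp [Finset.sum_sub_distrib, hg, hg']
  have hcomm : Commute (e (cyc a b c h)) (A.lam (g - g')) := by
    refine he.comm_on h (D := Finset.univ \ {a, b, c}) (by simp) (by simp) (by simp)
      (A.lam_mem' _ ?_ _ hd fun x hx => ?_)
    · rw [Finset.card_univ_sdiff, Fintype.card_fin]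
      have : ({a, b, c} : Finset (Fin n)).card ≤ 3 := Finset.card_le_three
      have := A.closed.colours
      omega
    · simp only [Finset.mem_sdiff, Finset.mem_univ, true_and, Finset.mem_insert,
        Finset.mem_singleton, not_not] at hx
      rcases hx with rfl | rfl | rfl <;> simp [ha, hb, hc]
  have : A.lam g = A.lam g' * A.lam (g - g') := by rw [← A.lam_add g' _ hg' hd, add_sub_cancel]
  rw [this]
  calc A.lam g' * A.lam (g - g') * e (cyc a b c h) * (A.lam g' * A.lam (g - g'))⁻¹
      = A.lam g' * (A.lam (g - g') * e (cyc a b c h)) * (A.lam (g - g'))⁻¹ * (A.lam g')⁻¹ := by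
        group
    _ = _ := by rw [← hcomm.eq]; group

/-- A member moves the meet by inner automorphisms. -/
lemma Good.conj_meet {p q k : Alt n →* Q} (hp : A.Good p) (hq : A.Good q) (hk : Meet p q k)
    (x z : Alt n) : p x * k z * (p x)⁻¹ = k (x * z * x⁻¹) := by
  have hc : ∀ a b, Commute ((p b)⁻¹ * A.u b) (p a) := by
    intro a b
    show _ = _
    have h := mul_inv_eq_iff_eq_mul.1 (hp.conj_u a b)
    rw [mul_assoc, h, map_mul, map_mul, map_inv]
    group
  let r : Alt n →* Q := MonoidHom.mk' (fun b => (p b)⁻¹ * A.u b) fun b c => by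
    rw [map_mul, map_mul, mul_inv_rev]
    have := (hc c b).inv_right.eq
    calc (p c)⁻¹ * (p b)⁻¹ * (A.u b * A.u c) = (p c)⁻¹ * ((p b)⁻¹ * A.u b) * A.u c := by group
      _ = _ := by rw [← this]; group
  have hpr : Comm p r := fun a b => (hc a b).symm
  have hqr : CSep q r := by
    intro a b c d s t v d' hs ht hv
    exact ((hq.csep hp) a b c d s t v d' hs ht hv).inv_right.mul_right
      ((hq.csep (Good.u A)) a b c d s t v d' hs ht hv)
  have hkr : Comm k r := Meet.orth A.closed.colours hk.symm (Meet.self r) hpr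
    hqr.to_sep hqr.to_sep hpr.sep
  have hu : A.u x * k z * (A.u x)⁻¹ = k (x * z * x⁻¹) := (hp.meet hq hk).conj_u z x
  have h1 : k z * ((p x)⁻¹ * A.u x) = ((p x)⁻¹ * A.u x) * k z := (hkr z x).eq
  rw [← hu]
  calc p x * k z * (p x)⁻¹ = p x * (k z * ((p x)⁻¹ * A.u x)) * (A.u x)⁻¹ := by group
    _ = _ := by rw [h1]; group

namespace Shift

variable {v w : Lat} {e f h : Alt n →* Q}

/-- The values on every element supported where the translation is `v`. -/
lemma apply_eq (hs : A.Shift v e f) {g : Fin n → Lat} (hg : ∑ d, g d = 0) (x : Alt n)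
    (hx : ∀ a, (x : Perm (Fin n)) a ≠ a → g a = v) : f x = A.lam g * e x * (A.lam g)⁻¹ := by
  have := mem_of_support (f.eqLocus ((MulAut.conj (A.lam g)).toMonoidHom.comp e))
    (Finset.univ.filter fun a => g a = v) (fun a b c d ha hb hc => ?_) x
    (fun a ha => Finset.mem_filter.2 ⟨Finset.mem_univ a, hx a ha⟩)
  · exact this
  · simp only [Finset.mem_filter, Finset.mem_univ, true_and] at ha hb hc
    exact hs a b c d g hg ha hb hc

/-- A translated coefficient is unique. -/
lemma unique (h₁ : A.Shift v e f) (h₂ : A.Shift v e h) : f = h := by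
  refine MonoidHom.eq_of_eqOn_dense (s := {g | ∃ a b c d, g = cyc a b c d})
    (eq_top_of_cyc _ fun a b c d => Subgroup.subset_closure ⟨a, b, c, d, rfl⟩) ?_
  rintro _ ⟨a, b, c, d, rfl⟩
  obtain ⟨g, hg, hl⟩ := exists_transl_list v [a, b, c]
    (by simp only [List.length_cons, List.length_nil]; have := A.closed.colours; omega)
  rw [h₁ a b c d g hg (hl a (by simp)) (hl b (by simp)) (hl c (by simp)),
    h₂ a b c d g hg (hl a (by simp)) (hl b (by simp)) (hl c (by simp))]

lemma of_good_zero (he : A.Good e) : A.Shift 0 e e := fun a b c d g hg ha hb hc => by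
  rw [he.lam_conj_eq d hg (g' := 0) (by simp) (by simpa using ha) (by simpa using hb)
    (by simpa using hc), A.lam_zero]
  simp

/-- The unit is fixed. -/
lemma unit (A : Amp Q n) (v : Lat) : A.Shift v A.u A.u := fun a b c d g hg ha hb hc => by
  have := A.lam_conj (cyc a b c d) g hg
  have e : g ∘ ((cyc a b c d : Perm (Fin n))⁻¹ : Perm (Fin n)) = g := by
    funext x
    obtain ⟨y, rfl⟩ := (cyc a b c d : Perm (Fin n)).surjective x
    rw [Function.comp_apply, Perm.inv_def, Equiv.symm_apply_apply]
    by_cases h1 : y = a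
    · subst h1; rw [cyc_apply_fst, ha, hb]
    by_cases h2 : y = b
    · subst h2; rw [cyc_apply_snd, hb, hc]
    by_cases h3 : y = c
    · subst h3; rw [cyc_apply_thd, ha, hc]
    rw [cyc_apply_of_ne _ _ _ _ h1 h2 h3]
  rw [e, mul_inv_eq_iff_eq_mul] at this
  rw [← this, mul_inv_cancel_right]

lemma one (A : Amp Q n) (v : Lat) : A.Shift v 1 1 := fun a b c d g _ _ _ _ => by simp

/-- Translation commutes with conjugation by the unit. -/
lemma good (he : A.Good e) (hs : A.Shift v e f) : A.Good f := by
  refine ⟨meet_iff_conj.2 fun x k => ?_, fun a b c d D ha hb hc hD => ?_⟩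
  · have : (MulAut.conj (A.u k)).toMonoidHom.comp f =
        f.comp (MulAut.conj k).toMonoidHom := by
      refine MonoidHom.eq_of_eqOn_dense (s := {g | ∃ a b c d, g = cyc a b c d})
        (eq_top_of_cyc _ fun a b c d => Subgroup.subset_closure ⟨a, b, c, d, rfl⟩) ?_
      rintro _ ⟨a, b, c, d, rfl⟩
      obtain ⟨g, hg, hl⟩ := exists_transl_list v [a, b, c]
        (by simp only [List.length_cons, List.length_nil]; have := A.closed.colours; omega)
      show A.u k * f _ * (A.u k)⁻¹ = f (k * cyc a b c d * k⁻¹)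
      have hsum : ∑ x, (g ∘ ((k : Perm (Fin n))⁻¹ : Perm (Fin n))) x = 0 := by
        rw [← hg]; exact Equiv.sum_comp _ g
      have he' := he.conj_u (cyc a b c d) k
      rw [conj_cyc k a b c d (dist_map k d)] at he' ⊢
      rw [hs a b c d g hg (hl a (by simp)) (hl b (by simp)) (hl c (by simp)),
        hs _ _ _ (dist_map k d) _ hsum (by simp [hl a]) (by simp [hl b]) (by simp [hl c]),
        ← A.lam_conj k g hg, ← he']
      group
    exact DFunLike.congr_fun this x
  · obtain ⟨g, hg, hl, hz⟩ := exists_transl v (S := {a, b, c}) (D := D)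
      ⟨by simp [Finset.insert_subset_iff, ha, hb, hc], fun q => by
        have := (Finset.card_le_card q).trans Finset.card_le_three; omega⟩
    rw [hs a b c d g hg (hl a (by simp)) (hl b (by simp)) (hl c (by simp))]
    have hlam := A.lam_mem' D (by omega) g hg hz
    exact mul_mem (mul_mem hlam (he.mem a b c d D ha hb hc hD)) (inv_mem hlam)

/-- Translations add up. -/
lemma add (h₁ : A.Shift v e f) (h₂ : A.Shift w f h) : A.Shift (v + w) e h := by
  intro a b c d g hg ha hb hc
  obtain ⟨g₂, hg₂, hl⟩ := exists_transl_list w [a, b, c]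
    (by simp only [List.length_cons, List.length_nil]; have := A.closed.colours; omega)
  have hg₁ : ∑ x, (g - g₂) x = 0 := by simp [Finset.sum_sub_distrib, hg, hg₂]
  rw [h₂ a b c d g₂ hg₂ (hl a (by simp)) (hl b (by simp)) (hl c (by simp)),
    h₁ a b c d (g - g₂) hg₁ (by simp [ha, hl a]) (by simp [hb, hl b]) (by simp [hc, hl c])]
  have e' : A.lam g = A.lam g₂ * A.lam (g - g₂) := by
    rw [← A.lam_add g₂ _ hg₂ hg₁, add_sub_cancel]
  rw [e']; group

/-- Translating back. -/
lemma symm (hs : A.Shift v e f) : A.Shift (-v) f e := by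
  intro a b c d g hg ha hb hc
  have hg' : ∑ x, (-g) x = 0 := by simp [Finset.sum_neg_distrib, hg]
  rw [hs a b c d (-g) hg' (by simp [ha]) (by simp [hb]) (by simp [hc]), A.lam_neg g hg]
  group

end Shift

open Classical in
/-- The value of the translated coefficient on a three-cycle. -/
noncomputable def shiftVal (A : Amp Q n) (v : Lat) (e : Alt n →* Q) (a b c : Fin n) : Q :=
  if h : Dist a b c ∧ ∃ g : Fin n → Lat, ∑ d, g d = 0 ∧ g a = v ∧ g b = v ∧ g c = v then
    A.lam h.2.choose * e (cyc a b c h.1) * (A.lam h.2.choose)⁻¹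
  else 1

lemma shiftVal_eq (v : Lat) {e : Alt n →* Q} (he : A.Good e) {a b c : Fin n} (d : Dist a b c)
    {g : Fin n → Lat} (hg : ∑ x, g x = 0) (ha : g a = v) (hb : g b = v) (hc : g c = v) :
    A.shiftVal v e a b c = A.lam g * e (cyc a b c d) * (A.lam g)⁻¹ := by
  have h : Dist a b c ∧ ∃ g : Fin n → Lat, ∑ x, g x = 0 ∧ g a = v ∧ g b = v ∧ g c = v :=
    ⟨d, g, hg, ha, hb, hc⟩
  rw [shiftVal, dif_pos h]
  obtain ⟨h1, h2, h3, h4⟩ := h.2.choose_spec
  exact he.lam_conj_eq d h1 hg (h2.trans ha.symm) (h3.trans hb.symm) (h4.trans hc.symm)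

/-- Every good coefficient can be translated. -/
theorem exists_shift (v : Lat) {e : Alt n →* Q} (he : A.Good e) :
    ∃ f, A.Shift v e f ∧ A.Good f := by
  have hn := A.closed.colours
  have val := fun {a b c : Fin n} (d : Dist a b c) {g : Fin n → Lat} (hg : ∑ x, g x = 0)
    (l : List (Fin n)) (hl : ∀ x ∈ l, g x = v) (ha : a ∈ l) (hb : b ∈ l) (hc : c ∈ l) =>
    shiftVal_eq (A := A) v he d hg (hl a ha) (hl b hb) (hl c hc)
  have hcyc : IsCycles (A.shiftVal v e) := by
    refine ⟨fun a b c d => ?_, fun a b c d => ?_, fun a b c d => ?_,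
      fun a b c x d1 d2 hbc => ?_, fun a b c d p q u d' => ?_⟩
    · obtain ⟨g, hg, hl⟩ := exists_transl_list v [a, b, c]
        (by simp only [List.length_cons, List.length_nil]; omega)
      have d' : Dist b c a := ⟨d.2.1, d.2.2.symm, d.1.symm⟩
      rw [val d hg _ hl (by simp) (by simp) (by simp), val d' hg _ hl (by simp) (by simp) (by simp),
        cyc_rotate a b c d d']
    · obtain ⟨g, hg, hl⟩ := exists_transl_list v [a, b, c]
        (by simp only [List.length_cons, List.length_nil]; omega)
      have d' : Dist a c b := ⟨d.2.2, d.2.1.symm, d.1⟩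
      have d₁ : Dist c b a := ⟨d.2.1.symm, d.1.symm, d.2.2.symm⟩
      rw [val d hg _ hl (by simp) (by simp) (by simp), val d' hg _ hl (by simp) (by simp) (by simp),
        ← cyc_rotate c b a d₁ ⟨d.1.symm, d.2.2, d.2.1⟩ |>.trans
          (cyc_rotate b a c ⟨d.1.symm, d.2.2, d.2.1⟩ d'), ← cyc_inv a b c d d₁, map_inv]
      group
    · obtain ⟨g, hg, hl⟩ := exists_transl_list v [a, b, c]
        (by simp only [List.length_cons, List.length_nil]; omega)
      rw [val d hg _ hl (by simp) (by simp) (by simp)]
      have h3 : cyc a b c d * cyc a b c d * cyc a b c d = 1 := Subtype.ext (Equiv.ext fun x => by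
        simp only [Subgroup.coe_mul, Perm.mul_apply, OneMemClass.coe_one, Perm.one_apply]
        exact cyc_apply_three a b c d x)
      calc _ = A.lam g * (e (cyc a b c d) * e (cyc a b c d) * e (cyc a b c d)) * (A.lam g)⁻¹ := by
            group
        _ = 1 := by rw [← map_mul, ← map_mul, h3, map_one]; group
    · obtain ⟨g, hg, hl⟩ := exists_transl_list v [a, b, c, x]
        (by simp only [List.length_cons, List.length_nil]; omega)
      have d3 : Dist c b x := ⟨hbc.symm, d1.2.1, d2.2.2⟩
      rw [val d1 hg _ hl (by simp) (by simp) (by simp), val d2 hg _ hl (by simp) (by simp) (by simp),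
        val d3 hg _ hl (by simp) (by simp) (by simp)]
      have h4 : cyc a b x d1 * cyc c a x d2 = cyc c b x d3 := by
        refine Subtype.ext ?_
        simp only [Subgroup.coe_mul, cyc_coe]
        obtain ⟨q1, q2, q3⟩ := d1
        obtain ⟨q4, q5, q6⟩ := d2
        refine Equiv.ext fun y => ?_
        simp only [Perm.mul_apply, Equiv.swap_apply_def]
        grind
      rw [← h4, map_mul]; group
    · obtain ⟨g, hg, hl⟩ := exists_transl_list v [a, b, c, p, q, u]
        (by simp only [List.length_cons, List.length_nil]; omega)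
      have hd := dist_map (cyc a b c d) d'
      have hmem : ∀ y ∈ [a, b, c, p, q, u], g ((cyc a b c d : Perm (Fin n)) y) = v := by
        intro y hy
        exact hl _ (cyc_maps (p := fun z => z ∈ [a, b, c, p, q, u]) d (by simp) (by simp)
          (by simp) hy)
      rw [val d hg _ hl (by simp) (by simp) (by simp), val d' hg _ hl (by simp) (by simp) (by simp),
        shiftVal_eq v he hd hg (hmem p (by simp)) (hmem q (by simp)) (hmem u (by simp)),
        ← conj_cyc (cyc a b c d) p q u d' hd]
      simp only [map_mul, map_inv]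
      group
  obtain ⟨f, hf⟩ := IsCycles.exists_hom hcyc
  have hs : A.Shift v e f := fun a b c d g hg ha hb hc => by
    rw [hf, shiftVal_eq v he d hg ha hb hc]
  exact ⟨f, hs, hs.good he⟩

namespace Shift

variable {v : Lat} {e₀ e₁ e f₀ f₁ f : Alt n →* Q}

/-- Orthogonal coefficients stay orthogonal. -/
lemma comm (h₀ : A.Shift v e₀ f₀) (h₁ : A.Shift v e₁ f₁) (hc : Comm e₀ e₁) : Comm f₀ f₁ := by
  intro x y
  have key : ∀ a b c (d : Dist a b c) y, Commute (f₀ (cyc a b c d)) (f₁ y) := by
    intro a b c d y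
    have : (Subgroup.centralizer {f₀ (cyc a b c d)}).comap f₁ = ⊤ :=
      eq_top_of_cyc _ fun p q u d' => by
        obtain ⟨g, hg, hl⟩ := exists_transl_list v [a, b, c, p, q, u]
          (by simp only [List.length_cons, List.length_nil]; have := A.closed.colours; omega)
        rw [Subgroup.mem_comap, Subgroup.mem_centralizer_singleton_iff,
          h₀ a b c d g hg (hl a (by simp)) (hl b (by simp)) (hl c (by simp)),
          h₁ p q u d' g hg (hl p (by simp)) (hl q (by simp)) (hl u (by simp))]
        exact ((Commute.conj_iff (A.lam g)).2 (hc _ _).symm).eq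
    have hy := Subgroup.mem_comap.1 (this ▸ Subgroup.mem_top y :
      y ∈ (Subgroup.centralizer {f₀ (cyc a b c d)}).comap f₁)
    exact (Subgroup.mem_centralizer_singleton_iff.1 hy).symm
  have : (Subgroup.centralizer {f₁ y}).comap f₀ = ⊤ := eq_top_of_cyc _ fun a b c d => by
    rw [Subgroup.mem_comap, Subgroup.mem_centralizer_singleton_iff]
    exact (key a b c d y).eq
  exact Subgroup.mem_centralizer_singleton_iff.1
    (Subgroup.mem_comap.1 (this ▸ Subgroup.mem_top x :
      x ∈ (Subgroup.centralizer {f₁ y}).comap f₀))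

/-- Translations respect orthogonal sums. -/
lemma split (h₀ : A.Shift v e₀ f₀) (h₁ : A.Shift v e₁ f₁) (h : A.Shift v e f)
    (hs : Split e₀ e₁ e) : Split f₀ f₁ f := by
  have hc := comm h₀ h₁ hs.1
  let m : Alt n →* Q := MonoidHom.mk' (fun a => f₀ a * f₁ a) fun a b => by
    rw [map_mul, map_mul]
    simp only [mul_assoc]
    rw [← mul_assoc (f₀ b), (hc b a).eq, mul_assoc]
  have hm : A.Shift v e m := fun a b c d g hg ha hb hc' => by
    show f₀ _ * f₁ _ = _
    rw [h₀ a b c d g hg ha hb hc', h₁ a b c d g hg ha hb hc', hs.2]; group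
  exact ⟨hc, fun a => DFunLike.congr_fun (h.unique hm) a⟩

/-- Translations respect meets. -/
lemma meet {e' f' k k' : Alt n →* Q} (he : A.Good e) (he' : A.Good e') (hk : Meet e e' k)
    (h : A.Shift v e f) (h' : A.Shift v e' f') (hk' : A.Shift v k k') : Meet f f' k' := by
  have hkg := he.meet he' hk
  have hn := A.closed.colours
  have dense : Subgroup.closure {g : Alt n | ∃ a b c d, g = cyc a b c d} = ⊤ :=
    eq_top_of_cyc _ fun a b c d => Subgroup.subset_closure ⟨a, b, c, d, rfl⟩
  have supp : ∀ {a b c : Fin n} (d : Dist a b c) (g : Fin n → Lat),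
      g a = v → g b = v → g c = v →
      ∀ x, (cyc a b c d : Perm (Fin n)) x ≠ x → g x = v := by
    intro a b c d g ha hb hc x hx
    by_contra hne
    exact hx (cyc_apply_of_ne a b c d (fun q => hne (q ▸ ha)) (fun q => hne (q ▸ hb))
      (fun q => hne (q ▸ hc)))
  -- both members move the meet as the colours do
  have conjk : ∀ {p p₀ : Alt n →* Q}, A.Shift v p₀ p →
      (∀ a b c (d : Dist a b c) z, p₀ (cyc a b c d) * k z * (p₀ (cyc a b c d))⁻¹ =
        k (cyc a b c d * z * (cyc a b c d)⁻¹)) →
      ∀ y z, p y * k' z * (p y)⁻¹ = k' (y * z * y⁻¹) := by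
    intro p p₀ hp hp₀
    let L : Subgroup (Alt n) :=
      { carrier := {y | ∀ z, p y * k' z * (p y)⁻¹ = k' (y * z * y⁻¹)}
        one_mem' := fun z => by simp
        mul_mem' := fun {x y} hx hy z => by
          simp only [Set.mem_ofPred_eq] at hx hy
          rw [map_mul, show x * y * z * (x * y)⁻¹ = x * (y * z * y⁻¹) * x⁻¹ by group, ← hx, ← hy]
          group
        inv_mem' := fun {x} hx z => by
          simp only [Set.mem_ofPred_eq] at hx
          have := hx (x⁻¹ * z * x⁻¹⁻¹)
          rw [show x * (x⁻¹ * z * x⁻¹⁻¹) * x⁻¹ = z by group] at this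
          rw [← this, map_inv]; group }
    have top : L = ⊤ := eq_top_of_cyc L fun a b c d z => by
      have := MonoidHom.eq_of_eqOn_dense dense
        (f := (MulAut.conj (p (cyc a b c d))).toMonoidHom.comp k')
        (g := k'.comp (MulAut.conj (cyc a b c d)).toMonoidHom) ?_
      · exact DFunLike.congr_fun this z
      rintro _ ⟨q, r, s, d', rfl⟩
      obtain ⟨g, hg, hl⟩ := exists_transl_list v [a, b, c, q, r, s]
        (by simp only [List.length_cons, List.length_nil]; omega)
      show p _ * k' _ * _ = k' (_ * _ * _)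
      have hsupp : ∀ x, ((cyc a b c d * cyc q r s d' * (cyc a b c d)⁻¹ : Alt n) : Perm (Fin n)) x ≠ x →
          g x = v := by
        rw [conj_cyc _ _ _ _ d' (dist_map _ d')]
        have hmem : ∀ y ∈ [a, b, c, q, r, s], g ((cyc a b c d : Perm (Fin n)) y) = v :=
          fun y hy => hl _ (cyc_maps (p := fun z => z ∈ [a, b, c, q, r, s]) d (by simp) (by simp)
            (by simp) hy)
        exact supp (dist_map _ d') g (hmem q (by simp)) (hmem r (by simp)) (hmem s (by simp))
      rw [hk'.apply_eq hg _ hsupp, hk' q r s d' g hg (hl q (by simp)) (hl r (by simp)) (hl s (by simp)),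
        hp a b c d g hg (hl a (by simp)) (hl b (by simp)) (hl c (by simp)), ← hp₀]
      group
    exact fun y => (top ▸ Subgroup.mem_top y : y ∈ L)
  have diag : ∀ {p₀ q₀ : Alt n →* Q}, A.Good p₀ → A.Good q₀ → Meet p₀ q₀ k →
      ∀ a b c (d : Dist a b c) z, p₀ (cyc a b c d) * k z * (p₀ (cyc a b c d))⁻¹ =
        k (cyc a b c d * z * (cyc a b c d)⁻¹) := by
    intro p₀ q₀ hp₀ hq₀ hm a b c d z
    exact hp₀.conj_meet hq₀ hm (cyc a b c d) z
  have c1 := conjk h (diag he he' hk)
  have c2 := conjk h' (diag he' he hk.symm)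
  refine fun x y => ?_
  let L : Alt n → Subgroup (Alt n) := fun x =>
    { carrier := {y | ⁅f x, f' y⁆ = k' ⁅x, y⁆}
      one_mem' := by simp
      mul_mem' := fun {y z} hy hz => by
        simp only [Set.mem_ofPred_eq] at hy hz ⊢
        rw [map_mul, commutator_mul_right, hy, hz, c2, ← map_mul, commutator_mul_right]
      inv_mem' := fun {y} hy => by
        simp only [Set.mem_ofPred_eq] at hy ⊢
        rw [map_inv, commutator_inv_right, commutator_inv_right, hy, ← map_inv k', ← map_inv f',
          c2] }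
  have cycl : ∀ a b c (d : Dist a b c) y, ⁅f (cyc a b c d), f' y⁆ = k' ⁅cyc a b c d, y⁆ := by
    intro a b c d
    have top : L (cyc a b c d) = ⊤ := eq_top_of_cyc _ fun p q r d' => by
      show ⁅_, _⁆ = _
      obtain ⟨g, hg, hl⟩ := exists_transl_list v [a, b, c, p, q, r]
        (by simp only [List.length_cons, List.length_nil]; omega)
      have s1 := supp d g (hl a (by simp)) (hl b (by simp)) (hl c (by simp))
      have s2 := supp d' g (hl p (by simp)) (hl q (by simp)) (hl r (by simp))
      rw [hk'.apply_eq hg _ (fun x hx => ?_), h.apply_eq hg _ s1, h'.apply_eq hg _ s2, ← hk]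
      · simp only [commutatorElement_def]; group
      by_contra hne
      apply hx
      have e1 : (cyc a b c d : Perm (Fin n)) x = x := by_contra fun q => hne (s1 x q)
      have e2 : (cyc p q r d' : Perm (Fin n)) x = x := by_contra fun q => hne (s2 x q)
      simp only [commutatorElement_def, Subgroup.coe_mul, Subgroup.coe_inv, Perm.mul_apply]
      rw [Perm.inv_eq_iff_eq.2 e2.symm, Perm.inv_eq_iff_eq.2 e1.symm, e2, e1]
    exact fun y => (top ▸ Subgroup.mem_top y : y ∈ L (cyc a b c d))
  let M : Subgroup (Alt n) :=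
    { carrier := {x | ∀ y, ⁅f x, f' y⁆ = k' ⁅x, y⁆}
      one_mem' := fun y => by simp
      mul_mem' := fun {x z} hx hz y => by
        simp only [Set.mem_ofPred_eq] at hx hz
        rw [map_mul, commutator_mul_left, hx, hz, c1, ← map_mul, commutator_mul_left]
      inv_mem' := fun {x} hx y => by
        simp only [Set.mem_ofPred_eq] at hx
        rw [map_inv, commutator_inv_left, commutator_inv_left, hx, ← map_inv k', ← map_inv f,
          c1] }
  have top : M = ⊤ := eq_top_of_cyc M fun a b c d => cycl a b c d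
  exact (top ▸ Subgroup.mem_top x : x ∈ M) y

end Shift

end Amp

end Vale.Agent.P196.Full.Lift
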